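import Mathlib

/-!
# Averages over two finite sets related by a biregular relation (tool for the 3-row lemma, M5)
-/

set_option autoImplicit false
open Finset

namespace Crest.Agent.Switch.Bireg

variable {α β κ : Type*}

/-- If `R` is a biregular relation between `A` and `P` and `|f v - g v'| ≤ D` for related pairs,
then the averages of `f` over `A` and of `g` over `P` differ by at most `D`
(cross-multiplied form, so that empty sets are allowed). -/
theorem biregular_sum_le (A : Finset α) (P : Finset β) (R : α → β → Prop)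
    [∀ a b, Decidable (R a b)] (f : α → ℝ) (g : β → ℝ) (p q : ℕ) (D : ℝ)
    (hp : ∀ v ∈ A, (P.filter (fun v' => R v v')).card = p)
    (hq : ∀ v' ∈ P, (A.filter (fun v => R v v')).card = q) (hq0 : 0 < q)
    (hD : ∀ v ∈ A, ∀ v' ∈ P, R v v' → |f v - g v'| ≤ D) :
    |(A.card : ℝ) * ∑ v' ∈ P, g v' - (P.card : ℝ) * ∑ v ∈ A, f v|
      ≤ (A.card : ℝ) * (P.card : ℝ) * D := by
  classical
  have hq0' : (0 : ℝ) < q := by exact_mod_cast hq0
  -- double counting
  have e1 : ∑ v ∈ A, ∑ v' ∈ P.filter (fun v' => R v v'), g v' = (q : ℝ) * ∑ v' ∈ P, g v' := by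
    have : ∑ v ∈ A, ∑ v' ∈ P.filter (fun v' => R v v'), g v'
        = ∑ v' ∈ P, ∑ v ∈ A.filter (fun v => R v v'), g v' := by
      simp only [Finset.sum_filter]
      exact Finset.sum_comm
    rw [this, Finset.mul_sum]
    refine Finset.sum_congr rfl fun v' hv' => ?_
    rw [Finset.sum_const, hq v' hv', nsmul_eq_mul]
  have e2 : ∑ v ∈ A, ∑ _v' ∈ P.filter (fun v' => R v v'), f v = (p : ℝ) * ∑ v ∈ A, f v := by
    rw [Finset.mul_sum]
    refine Finset.sum_congr rfl fun v hv => ?_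
    rw [Finset.sum_const, hp v hv, nsmul_eq_mul]
  have e3 : (p : ℝ) * A.card = (q : ℝ) * P.card := by
    have h1 : ∑ v ∈ A, ∑ _v' ∈ P.filter (fun v' => R v v'), (1 : ℝ) = (p : ℝ) * A.card := by
      rw [Finset.sum_congr rfl fun v hv => by
        rw [Finset.sum_const, hp v hv, nsmul_eq_mul, mul_one]]
      rw [Finset.sum_const, nsmul_eq_mul, mul_comm]
    have h2 : ∑ v ∈ A, ∑ _v' ∈ P.filter (fun v' => R v v'), (1 : ℝ) = (q : ℝ) * P.card := by
      have : ∑ v ∈ A, ∑ _v' ∈ P.filter (fun v' => R v v'), (1 : ℝ)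
          = ∑ v' ∈ P, ∑ _v ∈ A.filter (fun v => R v v'), (1 : ℝ) := by
        simp only [Finset.sum_filter]
        exact Finset.sum_comm
      rw [this, Finset.sum_congr rfl fun v' hv' => by
        rw [Finset.sum_const, hq v' hv', nsmul_eq_mul, mul_one]]
      rw [Finset.sum_const, nsmul_eq_mul, mul_comm]
    rw [← h1, h2]
  have e4 : |(q : ℝ) * ∑ v' ∈ P, g v' - (p : ℝ) * ∑ v ∈ A, f v| ≤ (q : ℝ) * P.card * D := by
    rw [← e1, ← e2, ← Finset.sum_sub_distrib]
    calc |∑ v ∈ A, (∑ v' ∈ P.filter (fun v' => R v v'), g v'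
            - ∑ _v' ∈ P.filter (fun v' => R v v'), f v)|
        ≤ ∑ v ∈ A, |∑ v' ∈ P.filter (fun v' => R v v'), g v'
            - ∑ _v' ∈ P.filter (fun v' => R v v'), f v| := Finset.abs_sum_le_sum_abs _ _
      _ ≤ ∑ v ∈ A, (p : ℝ) * D := by
          refine Finset.sum_le_sum fun v hv => ?_
          rw [← Finset.sum_sub_distrib]
          calc |∑ v' ∈ P.filter (fun v' => R v v'), (g v' - f v)|
              ≤ ∑ v' ∈ P.filter (fun v' => R v v'), |g v' - f v| :=
                Finset.abs_sum_le_sum_abs _ _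
            _ ≤ ∑ _v' ∈ P.filter (fun v' => R v v'), D := by
                refine Finset.sum_le_sum fun v' hv' => ?_
                rw [Finset.mem_filter] at hv'
                rw [abs_sub_comm]
                exact hD v hv v' hv'.1 hv'.2
            _ = (p : ℝ) * D := by rw [Finset.sum_const, hp v hv, nsmul_eq_mul]
      _ = (q : ℝ) * P.card * D := by
          rw [Finset.sum_const, nsmul_eq_mul, ← e3]; ring
  have e5 : (q : ℝ) * ((A.card : ℝ) * ∑ v' ∈ P, g v' - (P.card : ℝ) * ∑ v ∈ A, f v)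
      = (A.card : ℝ) * ((q : ℝ) * ∑ v' ∈ P, g v' - (p : ℝ) * ∑ v ∈ A, f v) := by
    have : (q : ℝ) * (P.card : ℝ) * ∑ v ∈ A, f v = (p : ℝ) * A.card * ∑ v ∈ A, f v := by rw [e3]
    linear_combination -this
  have e6 : (q : ℝ) * |(A.card : ℝ) * ∑ v' ∈ P, g v' - (P.card : ℝ) * ∑ v ∈ A, f v|
      ≤ (q : ℝ) * ((A.card : ℝ) * (P.card : ℝ) * D) := by
    rw [← abs_of_pos hq0', ← abs_mul, e5, abs_mul, abs_of_pos hq0',
      abs_of_nonneg (Nat.cast_nonneg A.card)]
    calc (A.card : ℝ) * |(q : ℝ) * ∑ v' ∈ P, g v' - (p : ℝ) * ∑ v ∈ A, f v|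
        ≤ (A.card : ℝ) * ((q : ℝ) * P.card * D) :=
          mul_le_mul_of_nonneg_left e4 (Nat.cast_nonneg _)
      _ = (q : ℝ) * ((A.card : ℝ) * (P.card : ℝ) * D) := by ring
  exact le_of_mul_le_mul_left e6 hq0'

/-- Special case of a bijection-like relation given by a map `e : A → P`. -/
theorem bij_sum_le (A : Finset α) (P : Finset β) (e : α → β) (f : α → ℝ) (g : β → ℝ) (D : ℝ)
    (he : Set.BijOn e A P) (hD : ∀ v ∈ A, |f v - g (e v)| ≤ D) :
    |(A.card : ℝ) * ∑ v' ∈ P, g v' - (P.card : ℝ) * ∑ v ∈ A, f v|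
      ≤ (A.card : ℝ) * (P.card : ℝ) * D := by
  classical
  have hcard : A.card = P.card :=
    Finset.card_bij (fun a _ => e a) (fun a ha => he.mapsTo ha)
      (fun a ha b hb h => he.injOn ha hb h)
      (fun b hb => by obtain ⟨a, ha, rfl⟩ := he.surjOn hb; exact ⟨a, ha, rfl⟩)
  have hsum : ∑ v' ∈ P, g v' = ∑ v ∈ A, g (e v) :=
    (Finset.sum_bij (fun a _ => e a) (fun a ha => he.mapsTo ha)
      (fun a ha b hb h => he.injOn ha hb h)
      (fun b hb => by obtain ⟨a, ha, rfl⟩ := he.surjOn hb; exact ⟨a, ha, rfl⟩)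
      (fun a _ => rfl)).symm
  rw [hsum, ← hcard, ← mul_sub, ← Finset.sum_sub_distrib, abs_mul,
    abs_of_nonneg (Nat.cast_nonneg A.card), mul_assoc]
  refine mul_le_mul_of_nonneg_left ?_ (Nat.cast_nonneg _)
  calc |∑ v ∈ A, (g (e v) - f v)| ≤ ∑ v ∈ A, |g (e v) - f v| := Finset.abs_sum_le_sum_abs _ _
    _ ≤ ∑ _v ∈ A, D := Finset.sum_le_sum fun v hv => by rw [abs_sub_comm]; exact hD v hv
    _ = (A.card : ℝ) * D := by rw [Finset.sum_const, nsmul_eq_mul]

/-- Gluing the estimate over the classes of a classification `cls` of the second set. -/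
theorem glue_sum_le [Fintype κ] [DecidableEq κ] (A : Finset α) (F : Finset β) (cls : β → κ)
    (f : α → ℝ) (g : β → ℝ) (D : ℝ)
    (h : ∀ k : κ, |(A.card : ℝ) * ∑ v' ∈ F.filter (fun v' => cls v' = k), g v'
        - ((F.filter (fun v' => cls v' = k)).card : ℝ) * ∑ v ∈ A, f v|
      ≤ (A.card : ℝ) * ((F.filter (fun v' => cls v' = k)).card : ℝ) * D) :
    |(A.card : ℝ) * ∑ v' ∈ F, g v' - (F.card : ℝ) * ∑ v ∈ A, f v|
      ≤ (A.card : ℝ) * (F.card : ℝ) * D := by
  have hs : ∑ v' ∈ F, g v' = ∑ k : κ, ∑ v' ∈ F.filter (fun v' => cls v' = k), g v' :=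
    (Finset.sum_fiberwise F cls g).symm
  have hc : (F.card : ℝ) = ∑ k : κ, ((F.filter (fun v' => cls v' = k)).card : ℝ) := by
    have := Finset.card_eq_sum_card_fiberwise (s := F) (t := (Finset.univ : Finset κ)) (f := cls)
      (fun x _ => Finset.mem_coe.2 (Finset.mem_univ _))
    rw [this]; push_cast; rfl
  rw [hs, hc, Finset.mul_sum, Finset.sum_mul, ← Finset.sum_sub_distrib, Finset.mul_sum,
    Finset.sum_mul]
  exact (Finset.abs_sum_le_sum_abs _ _).trans (Finset.sum_le_sum fun k _ => h k)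

/-- From the cross-multiplied form to averages. -/
theorem avg_sub_avg_le (A : Finset α) (F : Finset β) (f : α → ℝ) (g : β → ℝ) (D : ℝ)
    (hA : A.Nonempty) (hF : F.Nonempty)
    (h : |(A.card : ℝ) * ∑ v' ∈ F, g v' - (F.card : ℝ) * ∑ v ∈ A, f v|
      ≤ (A.card : ℝ) * (F.card : ℝ) * D) :
    |(∑ v ∈ A, f v) / (A.card : ℝ) - (∑ v' ∈ F, g v') / (F.card : ℝ)| ≤ D := by
  have ha : (0 : ℝ) < A.card := by exact_mod_cast Finset.card_pos.2 hA
  have hf : (0 : ℝ) < F.card := by exact_mod_cast Finset.card_pos.2 hF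
  have e : (∑ v ∈ A, f v) / (A.card : ℝ) - (∑ v' ∈ F, g v') / (F.card : ℝ)
      = -((A.card : ℝ) * ∑ v' ∈ F, g v' - (F.card : ℝ) * ∑ v ∈ A, f v)
        / ((A.card : ℝ) * (F.card : ℝ)) := by
    field_simp
    ring
  rw [e, abs_div, abs_neg, abs_of_pos (mul_pos ha hf), div_le_iff₀ (mul_pos ha hf)]
  linarith

end Crest.Agent.Switch.Bireg
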