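import Crest.Agent.Switch.Graph
import Crest.Agent.Switch.DisjointBlock

/-! # Module M9a (splice half of `block_count`)

The graphs `z` with `z - c - e = x - c - e` and `z - a - b = y - a - b` correspond bijectively to the
`2 × 2` blocks `M ⊆ mcells a b c e` with the row margins of `x` and the column margins of `y`. -/

set_option autoImplicit false
open Finset Crest.SwitchChain

namespace Crest.Agent.Switch.Spl

variable {n : ℕ}

lemma adj_mono {G H : Gr n} (h : G ⊆ H) {u v : Fin n} (hu : adj G u v) : adj H u v := by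
  obtain ⟨e, he, hs⟩ := hu
  exact ⟨e, h he, hs⟩

lemma card_inter_cell (G : Gr n) (p v : Fin n) :
    (G ∩ cell p v).card = if adj G p v then 1 else 0 := by
  by_cases h : p = v
  · subst h; simp [cell_self]
  · rw [cell_eq_singleton h]
    by_cases hm : mkE p v h ∈ G
    · rw [if_pos ((adj_iff_mem h).2 hm), inter_singleton_of_mem hm, card_singleton]
    · rw [if_neg (fun h' => hm ((adj_iff_mem h).1 h')), inter_singleton_of_notMem hm, card_empty]

lemma kk_eq (G : Gr n) {p q : Fin n} (hpq : p ≠ q) (v : Fin n) :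
    kk G p q v = (if adj G p v then 1 else 0) + (if adj G q v then 1 else 0) := by
  unfold kk
  rw [inter_union_distrib_left, card_union_of_disjoint, card_inter_cell, card_inter_cell]
  refine Disjoint.mono inter_subset_right inter_subset_right (disjoint_cell ?_)
  simp only [ne_eq, Sym2.eq_iff, not_or, not_and]
  refine ⟨fun h => absurd h hpq, fun h h' => hpq (h.trans h')⟩

/-- degree = degree outside the two stars + number of neighbours in the pair. -/
lemma deg_split (G : Gr n) {p q v : Fin n} (hpq : p ≠ q) (hvp : v ≠ p) (hvq : v ≠ q) :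
    deg G v = deg (G \ star2 p q) v + kk G p q v := by
  rw [← deg_inter_add_sdiff G (star2 p q) v, add_comm, kk_eq G hpq]
  congr 1
  rw [deg_eq_sum_adj]
  have : ∀ w, (if adj (G ∩ star2 p q) v w then 1 else 0)
      = (if w = p then (if adj G p v then 1 else 0) else 0)
        + (if w = q then (if adj G q v then 1 else 0) else 0) := by
    intro w
    simp only [adj_inter, adj_star2]
    by_cases hwp : w = p
    · subst hwp
      simp [hvp, hpq, adj_comm (a := v)]
    · by_cases hwq : w = q
      · subst hwq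
        simp [hvq, hwp, adj_comm (a := v)]
      · simp [hwp, hwq, hvp, hvq]
  rw [sum_congr rfl fun w _ => this w, sum_add_distrib]
  simp

/-- `kk` only depends on the two cells. -/
lemma kk_congr {G G' : Gr n} {p q v : Fin n} (hpq : p ≠ q) (h1 : adj G p v ↔ adj G' p v)
    (h2 : adj G q v ↔ adj G' q v) : kk G p q v = kk G' p q v := by
  rw [kk_eq G hpq, kk_eq G' hpq]; simp only [h1, h2]


/-- the splice of `x` (cells not touching `c,e`), `y` (cells not touching `a,b`) and a block `M`. -/
def splice (a b c e : Fin n) (x y M : Gr n) : Gr n := (x \ star2 c e) ∪ (y \ star2 a b) ∪ M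

lemma adj_splice {a b c e : Fin n} {x y M : Gr n} {u v : Fin n} :
    adj (splice a b c e x y M) u v ↔
      (adj x u v ∧ ¬ adj (star2 c e) u v) ∨ (adj y u v ∧ ¬ adj (star2 a b) u v) ∨ adj M u v := by
  simp only [splice, adj_union, adj_sdiff, or_assoc]

/-- a cell touching both pairs is one of the four block cells. -/
lemma adj_mcells_of_both {a b c e u v : Fin n} (h : dist4 a b c e)
    (h1 : adj (star2 a b) u v) (h2 : adj (star2 c e) u v) : adj (mcells a b c e) u v := by
  obtain ⟨hab, hac, hae, hbc, hbe, hce⟩ := h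
  rw [adj_star2] at h1 h2
  rw [adj_mcells]
  obtain ⟨huv, h1⟩ := h1
  obtain ⟨-, h2⟩ := h2
  refine ⟨huv, ?_⟩
  rcases h1 with rfl | rfl | rfl | rfl <;> rcases h2 with h2 | h2 | h2 | h2 <;>
    first
    | (exfalso; first | exact hac h2 | exact hae h2 | exact hbc h2 | exact hbe h2)
    | (subst h2; simp)

variable {a b c e : Fin n} {x y : Gr n}

/-- compatibility of `x` and `y` on the cells touching neither pair. -/
lemma compat (hxy : psiB a b c e x = psiB a b c e y) {u v : Fin n}
    (h1 : ¬ adj (star2 a b) u v) (h2 : ¬ adj (star2 c e) u v) : adj x u v ↔ adj y u v := by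
  have h := congrArg Prod.fst hxy
  simp only [psiB] at h
  rw [sdiff_eq_sdiff_iff] at h
  exact h u v (by rw [adj_union]; tauto)

lemma splice_sdiff_ce (hxy : psiB a b c e x = psiB a b c e y) {M : Gr n}
    (hM : M ⊆ mcells a b c e) : splice a b c e x y M \ star2 c e = x \ star2 c e := by
  rw [sdiff_eq_sdiff_iff]
  intro u v hS
  rw [adj_splice]
  constructor
  · rintro (h | h | h)
    · exact h.1
    · exact (compat hxy h.2 hS).2 h.1
    · exact absurd (adj_mono (hM.trans (mcells_subset_star2' a b c e)) h) hS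
  · intro h; exact Or.inl ⟨h, hS⟩

lemma splice_sdiff_ab (hxy : psiB a b c e x = psiB a b c e y) {M : Gr n}
    (hM : M ⊆ mcells a b c e) : splice a b c e x y M \ star2 a b = y \ star2 a b := by
  rw [sdiff_eq_sdiff_iff]
  intro u v hS
  rw [adj_splice]
  constructor
  · rintro (h | h | h)
    · exact (compat hxy hS h.2).1 h.1
    · exact h.1
    · exact absurd (adj_mono (hM.trans (mcells_subset_star2 a b c e)) h) hS
  · intro h; exact Or.inr (Or.inl ⟨h, hS⟩)

lemma splice_inter_mcells {M : Gr n} (hM : M ⊆ mcells a b c e) :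
    splice a b c e x y M ∩ mcells a b c e = M := by
  refine ext_adj fun u v => ?_
  rw [adj_inter, adj_splice]
  constructor
  · rintro ⟨h | h | h, hm⟩
    · exact absurd (adj_mono (mcells_subset_star2' a b c e) hm) h.2
    · exact absurd (adj_mono (mcells_subset_star2 a b c e) hm) h.2
    · exact h
  · intro h; exact ⟨Or.inr (Or.inr h), adj_mono hM h⟩

lemma splice_self (h : dist4 a b c e) {z : Gr n} (h1 : z \ star2 c e = x \ star2 c e)
    (h2 : z \ star2 a b = y \ star2 a b) :
    splice a b c e x y (z ∩ mcells a b c e) = z := by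
  rw [sdiff_eq_sdiff_iff] at h1 h2
  refine ext_adj fun u v => ?_
  rw [adj_splice, adj_inter]
  constructor
  · rintro (h' | h' | h')
    · exact (h1 u v h'.2).2 h'.1
    · exact (h2 u v h'.2).2 h'.1
    · exact h'.1
  · intro hz
    by_cases c1 : adj (star2 c e) u v
    · by_cases c2 : adj (star2 a b) u v
      · exact Or.inr (Or.inr ⟨hz, adj_mcells_of_both h c2 c1⟩)
      · exact Or.inr (Or.inl ⟨(h2 u v c2).1 hz, c2⟩)
    · exact Or.inl ⟨(h1 u v c1).1 hz, c1⟩


lemma deg_eq_of {G G' : Gr n} {p q v : Fin n} (hpq : p ≠ q) (hvp : v ≠ p) (hvq : v ≠ q)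
    (hs : G \ star2 p q = G' \ star2 p q) (hk : kk G p q v = kk G' p q v) : deg G v = deg G' v := by
  rw [deg_split G hpq hvp hvq, deg_split G' hpq hvp hvq, hs, hk]

lemma kk_eq_of {G G' : Gr n} {p q v : Fin n} (hpq : p ≠ q) (hvp : v ≠ p) (hvq : v ≠ q)
    (hs : G \ star2 p q = G' \ star2 p q) (hd : deg G v = deg G' v) : kk G p q v = kk G' p q v := by
  rw [deg_split G hpq hvp hvq, deg_split G' hpq hvp hvq, hs] at hd
  omega

/-- `kk` of the block part, rows. -/
lemma kk_inter_row (h : dist4 a b c e) (z : Gr n) {v : Fin n} (hv : v = a ∨ v = b) :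
    kk (z ∩ mcells a b c e) c e v = kk z c e v := by
  obtain ⟨hab, hac, hae, hbc, hbe, hce⟩ := h
  refine kk_congr hce ?_ ?_ <;> rw [adj_inter, adj_mcells] <;>
    rcases hv with rfl | rfl <;> simp [*, Ne.symm]

/-- `kk` of the block part, columns. -/
lemma kk_inter_col (h : dist4 a b c e) (z : Gr n) {v : Fin n} (hv : v = c ∨ v = e) :
    kk (z ∩ mcells a b c e) a b v = kk z a b v := by
  obtain ⟨hab, hac, hae, hbc, hbe, hce⟩ := h
  refine kk_congr hab ?_ ?_ <;> rw [adj_inter, adj_mcells] <;>
    rcases hv with rfl | rfl <;> simp [*]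

/-- the margin conditions on a block. -/
def Marg (a b c e : Fin n) (x y M : Gr n) : Prop :=
  kk M c e a = kk x c e a ∧ kk M c e b = kk x c e b ∧ kk M a b c = kk y a b c ∧
    kk M a b e = kk y a b e

instance (a b c e : Fin n) (x y M : Gr n) : Decidable (Marg a b c e x y M) := by
  unfold Marg; infer_instance

lemma splice_mem (d : Fin n → ℕ) (h : dist4 a b c e) (hx : x ∈ realizations d)
    (hy : y ∈ realizations d) (hxy : psiB a b c e x = psiB a b c e y) {M : Gr n}
    (hM : M ⊆ mcells a b c e) (hm : Marg a b c e x y M) :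
    splice a b c e x y M ∈ realizations d := by
  have h0 := h
  obtain ⟨hab, hac, hae, hbc, hbe, hce⟩ := h0
  obtain ⟨m1, m2, m3, m4⟩ := hm
  rw [mem_realizations] at hx hy ⊢
  have s1 := splice_sdiff_ce (x := x) (y := y) hxy hM
  have s2 := splice_sdiff_ab (x := x) (y := y) hxy hM
  have s3 := splice_inter_mcells (x := x) (y := y) hM
  intro v
  by_cases va : v = a
  · subst va
    rw [← hx v]
    refine deg_eq_of hce hac hae s1 ?_
    rw [← kk_inter_row h _ (Or.inl rfl), s3, m1]
  by_cases vb : v = b
  · subst vb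
    rw [← hx v]
    refine deg_eq_of hce hbc hbe s1 ?_
    rw [← kk_inter_row h _ (Or.inr rfl), s3, m2]
  by_cases vc : v = c
  · subst vc
    rw [← hy v]
    refine deg_eq_of hab hac.symm hbc.symm s2 ?_
    rw [← kk_inter_col h _ (Or.inl rfl), s3, m3]
  by_cases ve : v = e
  · subst ve
    rw [← hy v]
    refine deg_eq_of hab hae.symm hbe.symm s2 ?_
    rw [← kk_inter_col h _ (Or.inr rfl), s3, m4]
  · rw [← hy v]
    refine deg_eq_of hab va vb s2 ?_
    have k1 : kk x a b v = kk y a b v := by
      have := congrFun (congrArg (fun t => t.2.1) hxy) v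
      simpa [psiB, va, vb, vc, ve] using this
    rw [← k1]
    rw [sdiff_eq_sdiff_iff] at s1
    refine kk_congr hab (s1 _ _ ?_) (s1 _ _ ?_) <;> rw [adj_star2] <;> tauto

/-- **splice half of `block_count`.** -/
theorem block_card_eq (d : Fin n → ℕ) (a b c e : Fin n) (h : dist4 a b c e)
    (x y : Gr n) (hx : x ∈ realizations d) (hy : y ∈ realizations d)
    (hxy : psiB a b c e x = psiB a b c e y) :
    ((realizations d).filter fun z =>
        z \ star2 c e = x \ star2 c e ∧ z \ star2 a b = y \ star2 a b).card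
      = ((mcells a b c e).powerset.filter fun M =>
          kk M c e a = kk x c e a ∧ kk M c e b = kk x c e b ∧ kk M a b c = kk y a b c ∧
            kk M a b e = kk y a b e).card := by
  have h0 := h
  obtain ⟨hab, hac, hae, hbc, hbe, hce⟩ := h0
  refine card_nbij' (fun z => z ∩ mcells a b c e) (fun M => splice a b c e x y M) ?_ ?_ ?_ ?_
  · intro z hz
    simp only [coe_filter, Set.mem_ofPred_eq, mem_powerset] at hz ⊢
    obtain ⟨hzΩ, h1, h2⟩ := hz
    rw [mem_realizations] at hzΩ hx hy
    refine ⟨inter_subset_right, ?_, ?_, ?_, ?_⟩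
    · rw [kk_inter_row h _ (Or.inl rfl)]
      exact kk_eq_of hce hac hae h1 (by rw [hzΩ, hx])
    · rw [kk_inter_row h _ (Or.inr rfl)]
      exact kk_eq_of hce hbc hbe h1 (by rw [hzΩ, hx])
    · rw [kk_inter_col h _ (Or.inl rfl)]
      exact kk_eq_of hab hac.symm hbc.symm h2 (by rw [hzΩ, hy])
    · rw [kk_inter_col h _ (Or.inr rfl)]
      exact kk_eq_of hab hae.symm hbe.symm h2 (by rw [hzΩ, hy])
  · intro M hM
    simp only [coe_filter, Set.mem_ofPred_eq, mem_powerset] at hM ⊢
    exact ⟨splice_mem d h hx hy hxy hM.1 hM.2, splice_sdiff_ce hxy hM.1, splice_sdiff_ab hxy hM.1⟩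
  · intro z hz
    simp only [coe_filter, Set.mem_ofPred_eq] at hz
    exact splice_self h hz.2.1 hz.2.2
  · intro M hM
    simp only [coe_filter, Set.mem_ofPred_eq, mem_powerset] at hM
    exact splice_inter_mcells hM.1

end Crest.Agent.Switch.Spl
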