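import Crest.Agent.Switch.Basic

/-! # Module M4 (J2): the covariance bound on the Johnson scheme, from the Johnson gap (J1). -/

set_option autoImplicit false
open Finset

namespace Crest.Agent.Switch
namespace JCov

variable {ι : Type*} [DecidableEq ι]

/-- indicator of `c ∈ U`. -/
def xi (c : ι) (U : Finset ι) : ℝ := if c ∈ U then 1 else 0

/-- `g_cd = 1[exactly one of c,d in U]`. -/
def gx (c d : ι) (U : Finset ι) : ℝ := if (c ∈ U ↔ d ∈ U) then 0 else 1

lemma gx_eq (c d : ι) (U : Finset ι) :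
    gx c d U = xi c U + xi d U - 2 * (xi c U * xi d U) := by
  unfold gx xi
  by_cases hc : c ∈ U <;> by_cases hd : d ∈ U <;> simp [hc, hd]
  norm_num

lemma xi_sq (c : ι) (U : Finset ι) : xi c U * xi c U = xi c U := by
  unfold xi; split_ifs <;> simp

lemma gx_self (c : ι) (U : Finset ι) : gx c c U = 0 := by simp [gx]

lemma gx_comm (c d : ι) (U : Finset ι) : gx c d U = gx d c U := by
  rw [gx_eq, gx_eq]; ring

lemma gx_sq (c d : ι) (U : Finset ι) : gx c d U * gx c d U = gx c d U := by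
  unfold gx; split_ifs <;> simp

lemma gx_nonneg (c d : ι) (U : Finset ι) : 0 ≤ gx c d U := by
  unfold gx; split_ifs <;> simp

lemma gx_le_one (c d : ι) (U : Finset ι) : gx c d U ≤ 1 := by
  unfold gx; split_ifs <;> simp

/-- the number of `u`-subsets of `C` containing a given `k`-subset. -/
def mom (C : Finset ι) (u k : ℕ) : ℝ :=
  if k ≤ u then ((C.card - k).choose (u - k) : ℝ) else 0

lemma sum_ind (C T : Finset ι) (u : ℕ) (hT : T ⊆ C) :
    ∑ U ∈ powersetCard u C, (if T ⊆ U then (1 : ℝ) else 0) = mom C u T.card := by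
  rw [Finset.sum_boole]
  unfold mom
  split_ifs with h
  · rw [card_filter_powersetCard_subset T C u hT h]
  · have : (powersetCard u C).filter (fun U => T ⊆ U) = ∅ := by
      apply Finset.filter_eq_empty_iff.2
      intro U hU hTU
      exact h ((Finset.card_le_card hTU).trans (mem_powersetCard.1 hU).2.le)
    rw [this]; simp

lemma sum_xi1 (C : Finset ι) (u : ℕ) {c : ι} (hc : c ∈ C) :
    ∑ U ∈ powersetCard u C, xi c U = mom C u 1 := by
  have := sum_ind C {c} u (by simpa using hc)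
  simpa [xi] using this

lemma sum_xi2 (C : Finset ι) (u : ℕ) {c d : ι} (hc : c ∈ C) (hd : d ∈ C) (hcd : c ≠ d) :
    ∑ U ∈ powersetCard u C, xi c U * xi d U = mom C u 2 := by
  have := sum_ind C {c, d} u (by simp [insert_subset_iff, hc, hd])
  rw [card_pair hcd] at this
  rw [← this]
  refine sum_congr rfl fun U _ => ?_
  unfold xi
  by_cases h1 : c ∈ U <;> by_cases h2 : d ∈ U <;> simp [insert_subset_iff, h1, h2]

lemma sum_xi3 (C : Finset ι) (u : ℕ) {c d e : ι} (hc : c ∈ C) (hd : d ∈ C) (he : e ∈ C)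
    (hcd : c ≠ d) (hce : c ≠ e) (hde : d ≠ e) :
    ∑ U ∈ powersetCard u C, xi c U * xi d U * xi e U = mom C u 3 := by
  have := sum_ind C {c, d, e} u (by simp [insert_subset_iff, hc, hd, he])
  rw [card_eq_three.2 ⟨c, d, e, hcd, hce, hde, rfl⟩] at this
  rw [← this]
  refine sum_congr rfl fun U _ => ?_
  unfold xi
  by_cases h1 : c ∈ U <;> by_cases h2 : d ∈ U <;> by_cases h3 : e ∈ U <;>
    simp [insert_subset_iff, h1, h2, h3]

lemma sum_xi4 (C : Finset ι) (u : ℕ) {c d e h : ι} (hc : c ∈ C) (hd : d ∈ C) (he : e ∈ C)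
    (hh : h ∈ C) (hcd : c ≠ d) (hce : c ≠ e) (hch : c ≠ h) (hde : d ≠ e) (hdh : d ≠ h)
    (heh : e ≠ h) :
    ∑ U ∈ powersetCard u C, xi c U * xi d U * xi e U * xi h U = mom C u 4 := by
  have := sum_ind C {c, d, e, h} u (by simp [insert_subset_iff, hc, hd, he, hh])
  have hcard : ({c, d, e, h} : Finset ι).card = 4 := by
    rw [card_insert_of_notMem (by simp [hcd, hce, hch]),
      card_eq_three.2 ⟨d, e, h, hde, hdh, heh, rfl⟩]
  rw [hcard] at this
  rw [← this]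
  refine sum_congr rfl fun U _ => ?_
  unfold xi
  by_cases h1 : c ∈ U <;> by_cases h2 : d ∈ U <;> by_cases h3 : e ∈ U <;> by_cases h4 : h ∈ U <;>
    simp [insert_subset_iff, h1, h2, h3, h4]

/-- `P = ∑_U g_cd`. -/
def PP (C : Finset ι) (u : ℕ) : ℝ := 2 * mom C u 1 - 2 * mom C u 2

lemma sum_gx (C : Finset ι) (u : ℕ) {c d : ι} (hc : c ∈ C) (hd : d ∈ C) (hcd : c ≠ d) :
    ∑ U ∈ powersetCard u C, gx c d U = PP C u := by
  simp_rw [gx_eq, sum_sub_distrib, sum_add_distrib, ← mul_sum]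
  rw [sum_xi1 C u hc, sum_xi1 C u hd, sum_xi2 C u hc hd hcd]
  unfold PP; ring

lemma sum_gx_adj (C : Finset ι) (u : ℕ) {c d e : ι} (hc : c ∈ C) (hd : d ∈ C) (he : e ∈ C)
    (hcd : c ≠ d) (hce : c ≠ e) (hde : d ≠ e) :
    ∑ U ∈ powersetCard u C, gx c d U * gx c e U = PP C u / 2 := by
  have key : ∀ U, gx c d U * gx c e U
      = xi c U - xi c U * xi e U - xi c U * xi d U + xi d U * xi e U := by
    intro U
    rw [gx_eq, gx_eq]
    have h := xi_sq c U
    linear_combination (1 - 2 * xi e U - 2 * xi d U + 4 * xi d U * xi e U) * h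
  simp_rw [key, sum_add_distrib, sum_sub_distrib]
  rw [sum_xi1 C u hc, sum_xi2 C u hc he hce, sum_xi2 C u hc hd hcd, sum_xi2 C u hd he hde]
  unfold PP; ring

/-- `P2 = ∑_U g_cd g_eh` for disjoint pairs. -/
def P2 (C : Finset ι) (u : ℕ) : ℝ := 4 * mom C u 2 - 8 * mom C u 3 + 4 * mom C u 4

lemma sum_gx_dis (C : Finset ι) (u : ℕ) {c d e h : ι} (hc : c ∈ C) (hd : d ∈ C) (he : e ∈ C)
    (hh : h ∈ C) (hcd : c ≠ d) (hce : c ≠ e) (hch : c ≠ h) (hde : d ≠ e) (hdh : d ≠ h)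
    (heh : e ≠ h) :
    ∑ U ∈ powersetCard u C, gx c d U * gx e h U = P2 C u := by
  have key : ∀ U, gx c d U * gx e h U
      = xi c U * xi e U + xi c U * xi h U + xi d U * xi e U + xi d U * xi h U
        - 2 * (xi c U * xi e U * xi h U) - 2 * (xi d U * xi e U * xi h U)
        - 2 * (xi c U * xi d U * xi e U) - 2 * (xi c U * xi d U * xi h U)
        + 4 * (xi c U * xi d U * xi e U * xi h U) := by
    intro U
    rw [gx_eq, gx_eq]; ring
  simp_rw [key, sum_add_distrib, sum_sub_distrib, sum_add_distrib, ← mul_sum]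
  rw [sum_xi2 C u hc he hce, sum_xi2 C u hc hh hch, sum_xi2 C u hd he hde, sum_xi2 C u hd hh hdh,
    sum_xi3 C u hc he hh hce hch heh, sum_xi3 C u hd he hh hde hdh heh,
    sum_xi3 C u hc hd he hcd hce hde, sum_xi3 C u hc hd hh hcd hch hdh,
    sum_xi4 C u hc hd he hh hcd hce hch hde hdh heh]
  unfold P2; ring


lemma D1 (C : Finset ι) (A : ι → ι → ℝ) {c : ι} (hc : c ∈ C) :
    ∑ e ∈ C, ∑ h ∈ C, A e h * (if c = e then 1 else 0) = ∑ h ∈ C, A c h := by
  simp [Finset.sum_ite_irrel, Finset.sum_ite_eq, hc]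

lemma D2 (C : Finset ι) (A : ι → ι → ℝ) {c : ι} (hc : c ∈ C) :
    ∑ e ∈ C, ∑ h ∈ C, A e h * (if c = h then 1 else 0) = ∑ e ∈ C, A e c := by
  simp [Finset.sum_ite_eq, hc]

lemma D3 (C : Finset ι) (A : ι → ι → ℝ) {c d : ι} (hc : c ∈ C) (hd : d ∈ C) :
    ∑ e ∈ C, ∑ h ∈ C, A e h * (if c = e ∧ d = h then 1 else 0) = A c d := by
  simp [ite_and, Finset.sum_ite_irrel, Finset.sum_ite_eq, hc, hd]

lemma D4 (C : Finset ι) (A : ι → ι → ℝ) {c d : ι} (hc : c ∈ C) (hd : d ∈ C) :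
    ∑ e ∈ C, ∑ h ∈ C, A e h * (if c = h ∧ d = e then 1 else 0) = A d c := by
  simp [ite_and, Finset.sum_ite_eq, hc, hd]

lemma gram_bound (C : Finset ι) (A : ι → ι → ℝ) (K : ι → ι → ι → ι → ℝ) (P Q : ℝ)
    (hA0 : ∀ c, A c c = 0) (hAs : ∀ c d, A c d = A d c)
    (hT : ∑ c ∈ C, ∑ d ∈ C, A c d = 0)
    (hQ0 : 0 ≤ Q) (hQP : Q ≤ P)
    (hK : ∀ c ∈ C, ∀ d ∈ C, ∀ e ∈ C, ∀ h ∈ C, c ≠ d → e ≠ h →
      K c d e h = Q + (P / 2 - Q) * ((if c = e then 1 else 0) + (if c = h then 1 else 0)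
        + (if d = e then 1 else 0) + (if d = h then 1 else 0))
        + Q * ((if c = e ∧ d = h then 1 else 0) + (if c = h ∧ d = e then 1 else 0))) :
    ∑ c ∈ C, ∑ d ∈ C, A c d * ∑ e ∈ C, ∑ h ∈ C, A e h * K c d e h
      ≤ C.card * P * ∑ c ∈ C, ∑ d ∈ C, A c d ^ 2 := by
  set s : ι → ℝ := fun c => ∑ d ∈ C, A c d with hs
  set S : ℝ := ∑ c ∈ C, ∑ d ∈ C, A c d ^ 2 with hS
  set σ : ℝ := ∑ c ∈ C, s c ^ 2 with hσ
  have hs' : ∀ c, ∑ e ∈ C, A e c = s c := fun c => sum_congr rfl fun e _ => hAs e c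
  -- Step 1
  have step1 : ∀ c ∈ C, ∀ d ∈ C, A c d * ∑ e ∈ C, ∑ h ∈ C, A e h * K c d e h
      = A c d * (2 * (P / 2 - Q) * (s c + s d) + 2 * Q * A c d) := by
    intro c hc d hd
    by_cases hcd : c = d
    · subst hcd; rw [hA0]; ring
    congr 1
    have h1 : ∀ e ∈ C, ∀ h ∈ C, A e h * K c d e h
        = Q * A e h + (P / 2 - Q) * (A e h * (if c = e then 1 else 0)
          + A e h * (if c = h then 1 else 0)
          + A e h * (if d = e then 1 else 0) + A e h * (if d = h then 1 else 0))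
          + Q * (A e h * (if c = e ∧ d = h then 1 else 0)
          + A e h * (if c = h ∧ d = e then 1 else 0)) := by
      intro e he h hh
      by_cases heh : e = h
      · subst heh; rw [hA0]; ring
      rw [hK c hc d hd e he h hh hcd heh]; ring
    rw [sum_congr rfl fun e he => sum_congr rfl fun h hh => h1 e he h hh]
    simp_rw [sum_add_distrib, ← mul_sum, sum_add_distrib]
    rw [D1 C A hc, D2 C A hc, D1 C A hd, D2 C A hd, D3 C A hc hd, D4 C A hc hd, hT, hs', hs',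
      hAs d c]
    ring
  rw [sum_congr rfl fun c hc => sum_congr rfl fun d hd => step1 c hc d hd]
  -- Step 2
  have e1 : ∑ c ∈ C, ∑ d ∈ C, A c d * s c = σ := by
    refine sum_congr rfl fun c _ => ?_
    rw [← sum_mul]; ring
  have e2 : ∑ c ∈ C, ∑ d ∈ C, A c d * s d = σ := by
    rw [sum_comm]
    refine sum_congr rfl fun c _ => ?_
    rw [← sum_mul, hs']; ring
  have step2 : ∑ c ∈ C, ∑ d ∈ C, A c d * (2 * (P / 2 - Q) * (s c + s d) + 2 * Q * A c d)
      = 4 * (P / 2 - Q) * σ + 2 * Q * S := by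
    have : ∀ c d, A c d * (2 * (P / 2 - Q) * (s c + s d) + 2 * Q * A c d)
        = 2 * (P / 2 - Q) * (A c d * s c) + 2 * (P / 2 - Q) * (A c d * s d)
          + 2 * Q * A c d ^ 2 := by intro c d; ring
    simp_rw [this, sum_add_distrib, ← mul_sum]
    rw [e1, e2]; ring
  rw [step2]
  have hS0 : 0 ≤ S := sum_nonneg fun c _ => sum_nonneg fun d _ => sq_nonneg _
  have hσ0 : 0 ≤ σ := sum_nonneg fun c _ => sq_nonneg _
  have hP0 : 0 ≤ P := hQ0.trans hQP
  set N : ℝ := (C.card : ℝ) with hN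
  have hsT : ∑ c ∈ C, s c = 0 := hT
  -- Step 3: sum of squares
  have full : ∑ c ∈ C, ∑ d ∈ C, ((N - 2) * A c d - s c - s d) ^ 2
      = (N - 2) ^ 2 * S - 4 * (N - 2) * σ + 2 * N * σ := by
    have : ∀ c d, ((N - 2) * A c d - s c - s d) ^ 2
        = (N - 2) ^ 2 * A c d ^ 2 - 2 * (N - 2) * (A c d * s c) - 2 * (N - 2) * (A c d * s d)
          + s c ^ 2 + 2 * (s c * s d) + s d ^ 2 := by intro c d; ring
    simp_rw [this, sum_add_distrib, sum_sub_distrib, ← mul_sum]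
    rw [e1, e2, hsT]
    simp only [sum_const, nsmul_eq_mul, ← mul_sum, mul_zero]
    ring
  have F1 : 0 ≤ (N - 2) ^ 2 * S - 2 * (N - 2) * σ := by
    have h0 : 0 ≤ ∑ c ∈ C, ∑ d ∈ C.erase c, ((N - 2) * A c d - s c - s d) ^ 2 :=
      sum_nonneg fun c _ => sum_nonneg fun d _ => sq_nonneg _
    have h1 : ∑ c ∈ C, ∑ d ∈ C, ((N - 2) * A c d - s c - s d) ^ 2
        = ∑ c ∈ C, ∑ d ∈ C.erase c, ((N - 2) * A c d - s c - s d) ^ 2 + 4 * σ := by
      rw [hσ, mul_sum, ← sum_add_distrib]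
      refine sum_congr rfl fun c hc => ?_
      rw [← add_sum_erase C _ hc, hA0]; ring
    rw [full] at h1
    linarith
  -- Cauchy-Schwarz
  have F2 : σ ≤ (N - 1) * S := by
    rw [hσ, hS, mul_sum]
    refine sum_le_sum fun c hc => ?_
    have h1 : s c = ∑ d ∈ C.erase c, A c d := (sum_erase C (hA0 c)).symm
    have h2 : ∑ d ∈ C, A c d ^ 2 = ∑ d ∈ C.erase c, A c d ^ 2 :=
      (sum_erase C (by rw [hA0]; ring)).symm
    have h3 : ((C.erase c).card : ℝ) = N - 1 := by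
      rw [card_erase_of_mem hc, Nat.cast_sub (card_pos.2 ⟨c, hc⟩)]; simp [hN]
    rw [h1, h2, ← h3]
    exact sq_sum_le_card_mul_sum_sq
  rcases le_or_gt C.card 1 with hle | hgt
  · -- everything vanishes
    have hz : ∀ c ∈ C, ∀ d ∈ C, A c d = 0 := by
      intro c hc d hd
      rw [card_le_one.1 hle c hc d hd, hA0]
    have hS' : S = 0 := sum_eq_zero fun c hc => sum_eq_zero fun d hd => by rw [hz c hc d hd]; ring
    have hσ' : σ = 0 := sum_eq_zero fun c hc => by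
      have : s c = 0 := sum_eq_zero fun d hd => hz c hc d hd
      rw [this]; ring
    rw [hS', hσ']; simp
  have hN2 : (2 : ℝ) ≤ N := by rw [hN]; exact_mod_cast hgt
  rcases le_or_gt (P / 2 - Q) 0 with hθ | hθ
  · have h1 : 4 * (P / 2 - Q) * σ ≤ 0 := by
      have := mul_nonneg (neg_nonneg.2 hθ) hσ0
      linarith
    have h2 : 2 * Q * S ≤ N * P * S := by
      have h3 : 2 * Q ≤ N * P := by nlinarith
      exact mul_le_mul_of_nonneg_right h3 hS0
    linarith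
  · rcases eq_or_lt_of_le hN2 with h2 | h2
    · -- N = 2
      rw [← h2] at F2 ⊢
      have h3 : (P / 2 - Q) * σ ≤ (P / 2 - Q) * ((2 - 1) * S) :=
        mul_le_mul_of_nonneg_left F2 hθ.le
      have h4 : 0 ≤ Q * S := mul_nonneg hQ0 hS0
      nlinarith
    · -- N ≥ 3
      have hN3 : (3 : ℝ) ≤ N := by
        rw [hN] at h2 ⊢
        have : 2 < C.card := by exact_mod_cast h2
        exact_mod_cast this
      have h5 : 2 * σ ≤ (N - 2) * S := by
        have h6 : 0 ≤ (N - 2) * ((N - 2) * S - 2 * σ) := by nlinarith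
        have h7 : 0 < N - 2 := by linarith
        have := nonneg_of_mul_nonneg_right h6 h7
        linarith
      have h8 : (P / 2 - Q) * (2 * σ) ≤ (P / 2 - Q) * ((N - 2) * S) :=
        mul_le_mul_of_nonneg_left h5 hθ.le
      have h9 : 0 ≤ Q * (N - 3) * S := mul_nonneg (mul_nonneg hQ0 (by linarith)) hS0
      have h10 : 0 ≤ P * S := mul_nonneg hP0 hS0
      nlinarith

lemma sum_xi_mem (C : Finset ι) (u : ℕ) {U : Finset ι} (hU : U ∈ powersetCard u C) :
    ∑ c ∈ C, xi c U = u := by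
  unfold xi
  rw [Finset.sum_boole]
  have h := mem_powersetCard.1 hU
  have : C.filter (fun c => c ∈ U) = U := by
    ext x; simp only [mem_filter]; exact ⟨fun h => h.2, fun hx => ⟨h.1 hx, hx⟩⟩
  rw [this, h.2]

lemma sum_sum_gx (C : Finset ι) (u : ℕ) {U : Finset ι} (hU : U ∈ powersetCard u C) :
    ∑ c ∈ C, ∑ d ∈ C, gx c d U = 2 * C.card * u - 2 * (u : ℝ) ^ 2 := by
  simp_rw [gx_eq, sum_sub_distrib, sum_add_distrib, ← mul_sum, ← sum_mul]
  simp only [sum_const, nsmul_eq_mul, ← mul_sum, sum_xi_mem C u hU]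
  ring

/-- the Gram kernel. -/
def KK (C : Finset ι) (u : ℕ) (c d e h : ι) : ℝ :=
  ∑ U ∈ powersetCard u C, gx c d U * gx e h U

lemma KK_formula (C : Finset ι) (u : ℕ) (Q : ℝ)
    (hQ : ∀ c ∈ C, ∀ d ∈ C, ∀ e ∈ C, ∀ h ∈ C, c ≠ d → c ≠ e → c ≠ h → d ≠ e → d ≠ h → e ≠ h →
      KK C u c d e h = Q) :
    ∀ c ∈ C, ∀ d ∈ C, ∀ e ∈ C, ∀ h ∈ C, c ≠ d → e ≠ h →
      KK C u c d e h = Q + (PP C u / 2 - Q) * ((if c = e then 1 else 0) + (if c = h then 1 else 0)
        + (if d = e then 1 else 0) + (if d = h then 1 else 0))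
        + Q * ((if c = e ∧ d = h then 1 else 0) + (if c = h ∧ d = e then 1 else 0)) := by
  intro c hc d hd e he h hh hcd heh
  by_cases h1 : c = e
  · subst h1
    by_cases h2 : d = h
    · subst h2
      have : KK C u c d c d = PP C u := by
        unfold KK; simp_rw [gx_sq]; exact sum_gx C u hc hd hcd
      rw [this]; simp [hcd, Ne.symm hcd]; ring
    · have : KK C u c d c h = PP C u / 2 := sum_gx_adj C u hc hd hh hcd heh h2
      rw [this]; simp [heh, Ne.symm hcd, h2]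
  · by_cases h2 : c = h
    · subst h2
      by_cases h3 : d = e
      · subst h3
        have : KK C u c d d c = PP C u := by
          unfold KK; simp_rw [gx_comm d c, gx_sq]; exact sum_gx C u hc hd hcd
        rw [this]; simp [hcd, Ne.symm hcd]; ring
      · have : KK C u c d e c = PP C u / 2 := by
          unfold KK; simp_rw [gx_comm e c]; exact sum_gx_adj C u hc hd he hcd h1 h3
        rw [this]; simp [h1, Ne.symm hcd, h3]
    · by_cases h3 : d = e
      · subst h3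
        have : KK C u c d d h = PP C u / 2 := by
          unfold KK; simp_rw [gx_comm c d]; exact sum_gx_adj C u hd hc hh (Ne.symm hcd) heh h2
        rw [this]; simp [h1, h2, heh]
      · by_cases h4 : d = h
        · subst h4
          have : KK C u c d e d = PP C u / 2 := by
            unfold KK; simp_rw [gx_comm c d, gx_comm e d]
            exact sum_gx_adj C u hd hc he (Ne.symm hcd) h3 h1
          rw [this]; simp [h1, h2, h3]
        · rw [hQ c hc d hd e he h hh hcd h1 h2 h3 h4 heh]; simp [h1, h2, h3, h4]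


/-- `A_cd = ∑_U h(U) g_cd(U)`. -/
def AA (C : Finset ι) (u : ℕ) (h : Finset ι → ℝ) (c d : ι) : ℝ :=
  ∑ U ∈ powersetCard u C, h U * gx c d U

lemma exists_Q (C : Finset ι) (u : ℕ) (hpair : ∃ c ∈ C, ∃ d ∈ C, c ≠ d) :
    ∃ Q : ℝ, 0 ≤ Q ∧ Q ≤ PP C u ∧
      ∀ c ∈ C, ∀ d ∈ C, ∀ e ∈ C, ∀ h ∈ C, c ≠ d → c ≠ e → c ≠ h → d ≠ e → d ≠ h → e ≠ h →
        KK C u c d e h = Q := by
  by_cases hex : ∃ c ∈ C, ∃ d ∈ C, ∃ e ∈ C, ∃ h ∈ C,
      c ≠ d ∧ c ≠ e ∧ c ≠ h ∧ d ≠ e ∧ d ≠ h ∧ e ≠ h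
  · obtain ⟨c, hc, d, hd, e, he, h, hh, h1, h2, h3, h4, h5, h6⟩ := hex
    refine ⟨P2 C u, ?_, ?_, ?_⟩
    · rw [← sum_gx_dis C u hc hd he hh h1 h2 h3 h4 h5 h6]
      exact sum_nonneg fun U _ => mul_nonneg (gx_nonneg _ _ _) (gx_nonneg _ _ _)
    · rw [← sum_gx_dis C u hc hd he hh h1 h2 h3 h4 h5 h6, ← sum_gx C u hc hd h1]
      refine sum_le_sum fun U _ => ?_
      have := mul_le_mul_of_nonneg_left (gx_le_one e h U) (gx_nonneg c d U)
      linarith
    · intro c hc d hd e he h hh h1 h2 h3 h4 h5 h6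
      exact sum_gx_dis C u hc hd he hh h1 h2 h3 h4 h5 h6
  · obtain ⟨c, hc, d, hd, hcd⟩ := hpair
    refine ⟨0, le_refl _, ?_, ?_⟩
    · rw [← sum_gx C u hc hd hcd]
      exact sum_nonneg fun U _ => gx_nonneg _ _ _
    · intro c hc d hd e he h hh h1 h2 h3 h4 h5 h6
      exact absurd ⟨c, hc, d, hd, e, he, h, hh, h1, h2, h3, h4, h5, h6⟩ hex

omit [DecidableEq ι] in
lemma swap3 {κ : Type*} (C : Finset ι) (Ω : Finset κ) (F : ι → ι → κ → ℝ) :
    ∑ c ∈ C, ∑ d ∈ C, ∑ U ∈ Ω, F c d U = ∑ U ∈ Ω, ∑ c ∈ C, ∑ d ∈ C, F c d U := by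
  calc ∑ c ∈ C, ∑ d ∈ C, ∑ U ∈ Ω, F c d U = ∑ c ∈ C, ∑ U ∈ Ω, ∑ d ∈ C, F c d U :=
        sum_congr rfl fun c _ => sum_comm
    _ = ∑ U ∈ Ω, ∑ c ∈ C, ∑ d ∈ C, F c d U := sum_comm

lemma main_ineq (C : Finset ι) (u : ℕ) (h : Finset ι → ℝ)
    (hh : ∑ U ∈ powersetCard u C, h U = 0) (hpair : ∃ c ∈ C, ∃ d ∈ C, c ≠ d) :
    ∑ c ∈ C, ∑ d ∈ C, AA C u h c d ^ 2
      ≤ C.card * PP C u * ∑ U ∈ powersetCard u C, h U ^ 2 := by
  obtain ⟨Q, hQ0, hQP, hQ⟩ := exists_Q C u hpair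
  have hP0 : 0 ≤ PP C u := hQ0.trans hQP
  set A := AA C u h with hA
  set Ω := powersetCard u C with hΩ
  have hA0 : ∀ c, A c c = 0 := by
    intro c; simp [hA, AA, gx_self]
  have hAs : ∀ c d, A c d = A d c := by
    intro c d; simp only [hA, AA]; simp_rw [gx_comm c d]
  have hT : ∑ c ∈ C, ∑ d ∈ C, A c d = 0 := by
    simp only [hA, AA]
    rw [swap3]
    have : ∀ U ∈ Ω, ∑ c ∈ C, ∑ d ∈ C, h U * gx c d U
        = (2 * C.card * u - 2 * (u : ℝ) ^ 2) * h U := by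
      intro U hU
      simp_rw [← mul_sum]
      rw [sum_sum_gx C u hU]; ring
    rw [sum_congr rfl this, ← mul_sum, hh, mul_zero]
  have hgram := gram_bound C A (KK C u) (PP C u) Q hA0 hAs hT hQ0 hQP (KK_formula C u Q hQ)
  set G : Finset ι → ℝ := fun U => ∑ c ∈ C, ∑ d ∈ C, A c d * gx c d U with hG
  set S : ℝ := ∑ c ∈ C, ∑ d ∈ C, A c d ^ 2 with hS
  have hS0 : 0 ≤ S := sum_nonneg fun c _ => sum_nonneg fun d _ => sq_nonneg _
  -- `S = ⟨h, G⟩`
  have e1 : S = ∑ U ∈ Ω, h U * G U := by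
    simp only [hG, mul_sum]
    rw [← swap3]
    refine sum_congr rfl fun c _ => sum_congr rfl fun d _ => ?_
    have : ∀ U, h U * (A c d * gx c d U) = A c d * (h U * gx c d U) := by intro U; ring
    simp_rw [this, ← mul_sum]
    rw [sq]; rfl
  -- `⟨G, G⟩` is the quadratic form
  have e2 : ∑ U ∈ Ω, G U ^ 2
      = ∑ c ∈ C, ∑ d ∈ C, A c d * ∑ e ∈ C, ∑ k ∈ C, A e k * KK C u c d e k := by
    have h1 : ∀ U, G U ^ 2 = ∑ c ∈ C, ∑ d ∈ C, A c d * (gx c d U * G U) := by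
      intro U
      rw [sq]
      conv_lhs => rw [hG]
      simp only [sum_mul]
      refine sum_congr rfl fun c _ => sum_congr rfl fun d _ => ?_
      ring
    simp_rw [h1]
    rw [← swap3]
    refine sum_congr rfl fun c _ => sum_congr rfl fun d _ => ?_
    rw [← mul_sum]
    congr 1
    simp only [hG, mul_sum, KK]
    rw [← swap3]
    refine sum_congr rfl fun e _ => sum_congr rfl fun k _ => sum_congr rfl fun U _ => ?_
    ring
  have cs : (∑ U ∈ Ω, h U * G U) ^ 2 ≤ (∑ U ∈ Ω, h U ^ 2) * ∑ U ∈ Ω, G U ^ 2 :=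
    sum_mul_sq_le_sq_mul_sq _ _ _
  rw [← e1, e2] at cs
  set H : ℝ := ∑ U ∈ Ω, h U ^ 2 with hH
  have hH0 : 0 ≤ H := sum_nonneg fun U _ => sq_nonneg _
  have h3 : S ^ 2 ≤ H * (C.card * PP C u * S) := cs.trans (mul_le_mul_of_nonneg_left hgram hH0)
  rcases eq_or_lt_of_le hS0 with h0 | h0
  · rw [← h0]
    exact mul_nonneg (mul_nonneg (Nat.cast_nonneg _) hP0) hH0
  · have h4 : S * S ≤ (C.card * PP C u * H) * S := by nlinarith
    exact le_of_mul_le_mul_right h4 h0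

lemma ce_const {α : Type*} (Ω : Finset α) (f : α → ℝ) (x : α) :
    ce Ω (fun _ => ()) f x = (∑ y ∈ Ω, f y) / (Ω.card : ℝ) := by
  simp [ce, fib]

lemma yterm_eq (C : Finset ι) (u : ℕ) (f : Finset ι → ℝ) {c d : ι} (hc : c ∈ C) (hd : d ∈ C)
    (hcd : c ≠ d) :
    yterm (powersetCard u C) (fun _ => ()) (fun U => if (c ∈ U ↔ d ∈ U) then 0 else 1) f
      = AA C u (qe (powersetCard u C) (fun _ => ()) f) c d ^ 2 / PP C u := by
  have hg : (fun U : Finset ι => if (c ∈ U ↔ d ∈ U) then (0 : ℝ) else 1) = gx c d := rfl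
  rw [hg]
  unfold yterm AA qe
  simp only [ce_const]
  set Ω := powersetCard u C with hΩ
  rw [sum_gx C u hc hd hcd]
  set P := PP C u
  set M : ℝ := (Ω.card : ℝ) with hM
  have e1 : ∑ U ∈ Ω, (f U - (∑ y ∈ Ω, f y) / M) * gx c d U
      = ∑ U ∈ Ω, f U * gx c d U - (∑ y ∈ Ω, f y) / M * P := by
    simp_rw [sub_mul, sum_sub_distrib, ← mul_sum]
    rw [sum_gx C u hc hd hcd]
  rw [e1, sum_const, nsmul_eq_mul, ← hM]
  by_cases hM0 : M = 0
  · have : Ω = ∅ := by
      rw [hM] at hM0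
      exact card_eq_zero.1 (by exact_mod_cast hM0)
    rw [this]; simp
  by_cases hP : P = 0
  · simp [hP]
  field_simp

end JCov

/-- **J2** from **J1** (the hypothesis `hgap` is the statement of `johnson_gap`). -/
theorem johnson_cov_of_gap {ι : Type*} [DecidableEq ι] (C : Finset ι) (u : ℕ)
    (f : Finset ι → ℝ)
    (hgap : (C.card : ℝ) * ip (powersetCard u C) (qe (powersetCard u C) (fun _ => ()) f)
        (qe (powersetCard u C) (fun _ => ()) f)
      ≤ ∑ c ∈ C, ∑ d ∈ C.erase c,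
          ip (powersetCard u C) (qe (powersetCard u C) (fun U => U \ {c, d}) f)
            (qe (powersetCard u C) (fun U => U \ {c, d}) f)) :
    ∑ c ∈ C, ∑ d ∈ C.erase c,
        yterm (powersetCard u C) (fun _ => ()) (fun U => if (c ∈ U ↔ d ∈ U) then 0 else 1) f
      ≤ ∑ c ∈ C, ∑ d ∈ C.erase c,
          ip (powersetCard u C) (qe (powersetCard u C) (fun U => U \ {c, d}) f)
            (qe (powersetCard u C) (fun U => U \ {c, d}) f) := by
  by_cases hpair : ∃ c ∈ C, ∃ d ∈ C, c ≠ d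
  swap
  · refine sum_le_sum fun c hc => sum_le_sum fun d hd => ?_
    exact absurd ⟨c, hc, d, mem_of_mem_erase hd, (ne_of_mem_erase hd).symm⟩ hpair
  refine le_trans ?_ hgap
  set Ω := powersetCard u C with hΩ
  set h := qe Ω (fun _ => ()) f with hh
  have hsum : ∑ U ∈ Ω, h U = 0 := by
    simp only [hh, qe, JCov.ce_const, sum_sub_distrib, sum_const, nsmul_eq_mul]
    by_cases hM0 : (Ω.card : ℝ) = 0
    · have : Ω = ∅ := card_eq_zero.1 (by exact_mod_cast hM0)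
      rw [this]; simp
    field_simp
    ring
  have hmain := JCov.main_ineq C u h hsum hpair
  have e1 : ∑ c ∈ C, ∑ d ∈ C.erase c,
      yterm Ω (fun _ => ()) (fun U => if (c ∈ U ↔ d ∈ U) then 0 else 1) f
      = (∑ c ∈ C, ∑ d ∈ C, JCov.AA C u h c d ^ 2) / JCov.PP C u := by
    rw [sum_div]
    refine sum_congr rfl fun c hc => ?_
    rw [sum_div, ← sum_erase C (a := c) (by simp [JCov.AA, JCov.gx_self])]
    refine sum_congr rfl fun d hd => ?_
    exact JCov.yterm_eq C u f hc (mem_of_mem_erase hd) (ne_of_mem_erase hd).symm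
  rw [e1]
  have e2 : ip Ω h h = ∑ U ∈ Ω, h U ^ 2 := by
    unfold ip; exact sum_congr rfl fun U _ => (sq _).symm
  rw [e2]
  have hH0 : 0 ≤ ∑ U ∈ Ω, h U ^ 2 := sum_nonneg fun U _ => sq_nonneg _
  rcases lt_trichotomy (JCov.PP C u) 0 with hP | hP | hP
  · obtain ⟨Q, hQ0, hQP, -⟩ := JCov.exists_Q C u hpair
    linarith
  · rw [hP, div_zero]
    exact mul_nonneg (Nat.cast_nonneg _) hH0
  · rw [div_le_iff₀ hP]
    linarith

end Crest.Agent.Switch
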