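import Mathlib

/-!
# A non-empty exchange-closed family of `u`-subsets of `C` is everything
-/

set_option autoImplicit false
open Finset

namespace Crest.Agent.Switch

/-- `S ⊆ powersetCard u C` non-empty and closed under exchanges is all of `powersetCard u C`. -/
theorem johnson_full {α : Type*} [DecidableEq α] (C : Finset α) (u : ℕ) (S : Finset (Finset α))
    (hS : S ⊆ powersetCard u C) (hne : S.Nonempty)
    (hcl : ∀ U ∈ S, ∀ x ∈ U, ∀ y ∈ C \ U, insert y (U.erase x) ∈ S) :
    S = powersetCard u C := by
  apply Finset.Subset.antisymm hS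
  intro V hV
  obtain ⟨U0, hU0⟩ := hne
  have hVc := mem_powersetCard.1 hV
  have key : ∀ k : ℕ, ∀ U ∈ S, (V \ U).card = k → V ∈ S := by
    intro k
    induction k with
    | zero =>
      intro U hU hk
      have hsub : V ⊆ U := by
        rwa [Finset.card_eq_zero, Finset.sdiff_eq_empty_iff_subset] at hk
      have hUc := (mem_powersetCard.1 (hS hU)).2
      have : V = U := Finset.eq_of_subset_of_card_le hsub (by omega)
      rwa [this]
    | succ k ih =>
      intro U hU hk
      have hUc := mem_powersetCard.1 (hS hU)
      obtain ⟨y, hy⟩ : (V \ U).Nonempty := by rw [← Finset.card_pos]; omega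
      have hcard : (U \ V).card = (V \ U).card := by
        have h1 := Finset.card_sdiff_add_card_inter U V
        have h2 := Finset.card_sdiff_add_card_inter V U
        rw [Finset.inter_comm] at h2
        omega
      obtain ⟨x, hx⟩ : (U \ V).Nonempty := by rw [← Finset.card_pos]; omega
      rw [mem_sdiff] at hx hy
      have hU' := hcl U hU x hx.1 y (mem_sdiff.2 ⟨hVc.1 hy.1, hy.2⟩)
      apply ih _ hU'
      have e : V \ insert y (U.erase x) = (V \ U).erase y := by
        ext z
        simp only [mem_sdiff, mem_insert, mem_erase, not_or, not_and]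
        constructor
        · rintro ⟨hz, hzy, hzx⟩
          refine ⟨hzy, hz, fun hzU => hzx ?_ hzU⟩
          rintro rfl
          exact hx.2 hz
        · rintro ⟨hzy, hz, hzU⟩
          exact ⟨hz, hzy, fun _ h => hzU h⟩
      rw [e, Finset.card_erase_of_mem (mem_sdiff.2 hy), hk]
      rfl
  exact key _ U0 hU0 rfl

end Crest.Agent.Switch
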