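import Crest.Agent.Switch.Graph

/-! # Shared definitions for the `PairFibre` module (M7b): Johnson coordinates of the fibres of
`G ↦ G \ star2 a b`. -/

set_option autoImplicit false
open Finset Crest.SwitchChain

namespace Crest.Agent.Switch.PF

variable {n : ℕ}

/-- the vertices `w ∉ {a,b}` adjacent to `a` but not to `b`. -/
def Uset (a b : Fin n) (G : Gr n) : Finset (Fin n) :=
  univ.filter fun w => w ≠ a ∧ w ≠ b ∧ adj G a w ∧ ¬ adj G b w

/-- the vertices `w ∉ {a,b}` adjacent to exactly one of `a`, `b`. -/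
def Cset (a b : Fin n) (G : Gr n) : Finset (Fin n) :=
  univ.filter fun w => w ≠ a ∧ w ≠ b ∧ (adj G a w ↔ ¬ adj G b w)

theorem mem_Uset {a b w : Fin n} {G : Gr n} :
    w ∈ Uset a b G ↔ w ≠ a ∧ w ≠ b ∧ adj G a w ∧ ¬ adj G b w := by
  simp [Uset]

theorem mem_Cset {a b w : Fin n} {G : Gr n} :
    w ∈ Cset a b G ↔ w ≠ a ∧ w ≠ b ∧ (adj G a w ↔ ¬ adj G b w) := by
  simp [Cset]

theorem Uset_subset_Cset (a b : Fin n) (G : Gr n) : Uset a b G ⊆ Cset a b G := by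
  intro w hw
  rw [mem_Uset] at hw
  rw [mem_Cset]
  exact ⟨hw.1, hw.2.1, by tauto⟩

theorem mem_Cset_sdiff_Uset {a b w : Fin n} {G : Gr n} :
    w ∈ Cset a b G \ Uset a b G ↔ w ≠ a ∧ w ≠ b ∧ ¬ adj G a w ∧ adj G b w := by
  rw [mem_sdiff, mem_Cset, mem_Uset]; tauto

end Crest.Agent.Switch.PF
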