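import Crest.Agent.Switch.PairDefs

/-! # PairFibre, steps P1, P2, P3: what is constant on a fibre of `G ↦ G \ star2 a b`. -/

set_option autoImplicit false
open Finset Crest.SwitchChain

namespace Crest.Agent.Switch.PF

variable {n : ℕ}

/-- common neighbours of `a` and `b`. -/
def Bset (a b : Fin n) (G : Gr n) : Finset (Fin n) :=
  univ.filter fun w => adj G a w ∧ adj G b w

theorem mem_Bset {a b w : Fin n} {G : Gr n} : w ∈ Bset a b G ↔ adj G a w ∧ adj G b w := by
  simp [Bset]

/-- the degree of a vertex `w ∉ {a,b}`. -/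
theorem k_add {a b : Fin n} (hab : a ≠ b) (G : Gr n) {w : Fin n} (hwa : w ≠ a) (hwb : w ≠ b) :
    (if adj G a w then 1 else 0) + (if adj G b w then 1 else 0) + deg (G \ star2 a b) w
      = deg G w := by
  rw [← deg_inter_add_sdiff G (star2 a b) w]
  congr 1
  rw [deg_eq_sum_adj]
  have : ∀ x, (if adj (G ∩ star2 a b) w x then 1 else 0 : ℕ)
      = (if x = a then (if adj G a w then 1 else 0) else 0)
        + (if x = b then (if adj G b w then 1 else 0) else 0) := by
    intro x
    simp only [adj_inter, adj_star2]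
    by_cases hxa : x = a
    · subst hxa
      simp [hab, hwa, adj_comm (a := w)]
    · by_cases hxb : x = b
      · subst hxb
        simp [hxa, hwb, adj_comm (a := w)]
      · simp [hxa, hxb, hwa, hwb]
  rw [sum_congr rfl (fun w _ => this w)]
  simp only [sum_add_distrib, sum_ite_eq', mem_univ, if_true]

theorem k_eq {d : Fin n → ℕ} {a b : Fin n} (hab : a ≠ b) {G G' : Gr n}
    (hG : G ∈ realizations d) (hG' : G' ∈ realizations d)
    (h : G \ star2 a b = G' \ star2 a b) {w : Fin n} (hwa : w ≠ a) (hwb : w ≠ b) :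
    (if adj G a w then 1 else 0) + (if adj G b w then 1 else 0)
      = (if adj G' a w then 1 else 0) + (if adj G' b w then 1 else 0) := by
  have h1 := k_add hab G hwa hwb
  have h2 := k_add hab G' hwa hwb
  rw [mem_realizations] at hG hG'
  rw [hG w] at h1
  rw [hG' w, ← h] at h2
  omega

/-- **P1** -/
theorem Cset_eq {d : Fin n → ℕ} {a b : Fin n} (hab : a ≠ b) {G G' : Gr n}
    (hG : G ∈ realizations d) (hG' : G' ∈ realizations d)
    (h : G \ star2 a b = G' \ star2 a b) : Cset a b G = Cset a b G' := by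
  ext w
  rw [mem_Cset, mem_Cset]
  by_cases hwa : w = a
  · simp [hwa]
  by_cases hwb : w = b
  · simp [hwb]
  have := k_eq hab hG hG' h hwa hwb
  by_cases h1 : adj G a w <;> by_cases h2 : adj G b w <;> by_cases h3 : adj G' a w <;>
    by_cases h4 : adj G' b w <;> simp [h1, h2, h3, h4, hwa, hwb] at this ⊢

/-- **P1'** -/
theorem both_iff {d : Fin n → ℕ} {a b : Fin n} (hab : a ≠ b) {G G' : Gr n}
    (hG : G ∈ realizations d) (hG' : G' ∈ realizations d)
    (h : G \ star2 a b = G' \ star2 a b) (w : Fin n) :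
    (adj G a w ∧ adj G b w) ↔ (adj G' a w ∧ adj G' b w) := by
  by_cases hwa : w = a
  · simp [hwa]
  by_cases hwb : w = b
  · simp [hwb]
  have := k_eq hab hG hG' h hwa hwb
  by_cases h1 : adj G a w <;> by_cases h2 : adj G b w <;> by_cases h3 : adj G' a w <;>
    by_cases h4 : adj G' b w <;> simp [h1, h2, h3, h4] at this ⊢

/-- **P1''**: neither. -/
theorem neither_iff {d : Fin n → ℕ} {a b : Fin n} (hab : a ≠ b) {G G' : Gr n}
    (hG : G ∈ realizations d) (hG' : G' ∈ realizations d)
    (h : G \ star2 a b = G' \ star2 a b) {w : Fin n} (hwa : w ≠ a) (hwb : w ≠ b) :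
    (¬ adj G a w ∧ ¬ adj G b w) ↔ (¬ adj G' a w ∧ ¬ adj G' b w) := by
  have := k_eq hab hG hG' h hwa hwb
  by_cases h1 : adj G a w <;> by_cases h2 : adj G b w <;> by_cases h3 : adj G' a w <;>
    by_cases h4 : adj G' b w <;> simp [h1, h2, h3, h4] at this ⊢

theorem Bset_eq {d : Fin n → ℕ} {a b : Fin n} (hab : a ≠ b) {G G' : Gr n}
    (hG : G ∈ realizations d) (hG' : G' ∈ realizations d)
    (h : G \ star2 a b = G' \ star2 a b) : Bset a b G = Bset a b G' := by
  ext w
  rw [mem_Bset, mem_Bset]
  exact both_iff hab hG hG' h w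

/-- the degree of `a`. -/
theorem deg_a {a b : Fin n} (hab : a ≠ b) (G : Gr n) :
    deg G a = (if adj G a b then 1 else 0) + (Uset a b G).card + (Bset a b G).card := by
  rw [deg_eq_sum_adj, Uset, Bset, card_filter, card_filter]
  have : ∀ w, (if adj G a w then 1 else 0 : ℕ)
      = (if w = b then (if adj G a b then 1 else 0) else 0)
        + (if w ≠ a ∧ w ≠ b ∧ adj G a w ∧ ¬ adj G b w then 1 else 0)
        + (if adj G a w ∧ adj G b w then 1 else 0) := by
    intro w
    by_cases hwb : w = b
    · subst hwb; simp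
    by_cases hwa : w = a
    · subst hwa; simp [hab]
    by_cases h1 : adj G a w <;> by_cases h2 : adj G b w <;> simp [h1, h2, hwa, hwb]
  rw [sum_congr rfl (fun w _ => this w)]
  simp only [sum_add_distrib, sum_ite_eq', mem_univ, if_true]

/-- the degree of `b`. -/
theorem deg_b {a b : Fin n} (hab : a ≠ b) (G : Gr n) :
    deg G b = (if adj G a b then 1 else 0) + (Cset a b G \ Uset a b G).card
      + (Bset a b G).card := by
  have e : Cset a b G \ Uset a b G
      = univ.filter fun w => w ≠ a ∧ w ≠ b ∧ ¬ adj G a w ∧ adj G b w := by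
    ext w; rw [mem_Cset_sdiff_Uset]; simp
  rw [e, deg_eq_sum_adj, Bset, card_filter, card_filter]
  have : ∀ w, (if adj G b w then 1 else 0 : ℕ)
      = (if w = a then (if adj G a b then 1 else 0) else 0)
        + (if w ≠ a ∧ w ≠ b ∧ ¬ adj G a w ∧ adj G b w then 1 else 0)
        + (if adj G a w ∧ adj G b w then 1 else 0) := by
    intro w
    by_cases hwa : w = a
    · subst hwa; simp [adj_comm (a := b)]
    by_cases hwb : w = b
    · subst hwb; simp [hab.symm]
    by_cases h1 : adj G a w <;> by_cases h2 : adj G b w <;> simp [h1, h2, hwa, hwb]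
  rw [sum_congr rfl (fun w _ => this w)]
  simp only [sum_add_distrib, sum_ite_eq', mem_univ, if_true]

/-- **P2** -/
theorem adj_ab_iff {d : Fin n → ℕ} {a b : Fin n} (hab : a ≠ b) {G G' : Gr n}
    (hG : G ∈ realizations d) (hG' : G' ∈ realizations d)
    (h : G \ star2 a b = G' \ star2 a b) : adj G a b ↔ adj G' a b := by
  have hC := Cset_eq hab hG hG' h
  have hB := Bset_eq hab hG hG' h
  have a1 := deg_a hab G
  have a2 := deg_a hab G'
  have b1 := deg_b hab G
  have b2 := deg_b hab G'
  have c1 := card_sdiff_add_card_eq_card (Uset_subset_Cset a b G)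
  have c2 := card_sdiff_add_card_eq_card (Uset_subset_Cset a b G')
  rw [mem_realizations] at hG hG'
  rw [hG] at a1 b1
  rw [hG'] at a2 b2
  rw [hC] at c1 b1
  rw [hB] at a1 b1
  by_cases h1 : adj G a b <;> by_cases h2 : adj G' a b <;> simp [h1, h2] at a1 a2 b1 b2 ⊢ <;> omega

/-- **P3** -/
theorem card_Uset_eq {d : Fin n → ℕ} {a b : Fin n} (hab : a ≠ b) {G G' : Gr n}
    (hG : G ∈ realizations d) (hG' : G' ∈ realizations d)
    (h : G \ star2 a b = G' \ star2 a b) : (Uset a b G).card = (Uset a b G').card := by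
  have hB := Bset_eq hab hG hG' h
  have hab' := adj_ab_iff hab hG hG' h
  have a1 := deg_a hab G
  have a2 := deg_a hab G'
  rw [mem_realizations] at hG hG'
  rw [hG, hB] at a1
  rw [hG'] at a2
  simp only [hab'] at a1
  omega

end Crest.Agent.Switch.PF
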