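import Crest.Agent.Switch.PairDefs

/-! # P4, P5 of the pair-fibre module (helper18) -/

set_option autoImplicit false
open Finset Crest.SwitchChain

namespace Crest.Agent.Switch.PF

variable {n : ℕ}

/-- the degree of `v ∉ {p,q}` splits into the neighbours in `{p,q}` and the rest. -/
theorem deg_eq_ind_add (G : Gr n) {p q v : Fin n} (hpq : p ≠ q) (hvp : v ≠ p) (hvq : v ≠ q) :
    deg G v = ((if adj G p v then 1 else 0) + (if adj G q v then 1 else 0))
      + deg (G \ star2 p q) v := by
  rw [← deg_inter_add_sdiff G (star2 p q) v]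
  congr 1
  rw [deg_eq_sum_adj]
  have : ∀ w, (if adj (G ∩ star2 p q) v w then 1 else 0)
      = (if w = p then (if adj G p v then 1 else 0) else 0)
        + (if w = q then (if adj G q v then 1 else 0) else 0) := by
    intro w
    simp only [adj_inter, adj_star2]
    by_cases hwp : w = p
    · subst hwp
      have : w ≠ q := hpq
      by_cases ha : adj G w v
      · simp [ha, ha.symm, this, hvp]
      · have : ¬ adj G v w := fun h => ha h.symm
        simp [ha, this, hpq]
    · by_cases hwq : w = q
      · subst hwq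
        by_cases ha : adj G w v
        · simp [ha, ha.symm, hwp, hvq]
        · have : ¬ adj G v w := fun h => ha h.symm
          simp [ha, this, hwp]
      · simp [hwp, hwq, hvp, hvq]
  rw [sum_congr rfl fun w _ => this w, sum_add_distrib]
  simp

/-- P4: inside a fibre of `G ↦ G - a - b` the graph is determined by `Uset a b G`. -/
theorem P4 (d : Fin n → ℕ) {a b : Fin n} (hab : a ≠ b) {G G' : Gr n}
    (hG : G ∈ realizations d) (hG' : G' ∈ realizations d)
    (hGG' : G \ star2 a b = G' \ star2 a b) (hU : Uset a b G = Uset a b G') : G = G' := by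
  have hdeg : ∀ v, deg G v = deg G' v := fun v => by
    rw [mem_realizations.1 hG v, mem_realizations.1 hG' v]
  -- rows a and b agree outside {a,b}
  have hrow : ∀ w, w ≠ a → w ≠ b → (adj G a w ↔ adj G' a w) ∧ (adj G b w ↔ adj G' b w) := by
    intro w hwa hwb
    have hk1 := deg_eq_ind_add G hab hwa hwb
    have hk2 := deg_eq_ind_add G' hab hwa hwb
    rw [hGG', hdeg w, hk2] at hk1
    have hk := Nat.add_right_cancel hk1
    have hw : w ∈ Uset a b G ↔ w ∈ Uset a b G' := by rw [hU]
    simp only [mem_Uset, hwa, hwb, ne_eq, not_false_eq_true, true_and] at hw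
    by_cases h1 : adj G a w <;> by_cases h2 : adj G b w <;> by_cases h3 : adj G' a w <;>
      by_cases h4 : adj G' b w <;> simp [h1, h2, h3, h4] at hk hw ⊢
  -- the cell ab
  have hcell : adj G a b ↔ adj G' a b := by
    have e1 := deg_eq_sum_adj G a
    have e2 := deg_eq_sum_adj G' a
    have hs : ∀ H : Gr n, (∑ w, if adj H a w then 1 else 0)
        = (if adj H a b then 1 else 0) + ∑ w ∈ univ.erase b, if adj H a w then 1 else 0 := by
      intro H
      exact (add_sum_erase univ (fun w => if adj H a w then 1 else 0) (mem_univ b)).symm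
    rw [hs] at e1 e2
    have hrest : (∑ w ∈ univ.erase b, if adj G a w then 1 else 0)
        = ∑ w ∈ univ.erase b, if adj G' a w then 1 else 0 := by
      refine sum_congr rfl fun w hw => ?_
      have hwb : w ≠ b := (mem_erase.1 hw).1
      by_cases hwa : w = a
      · subst hwa; simp
      · simp only [(hrow w hwa hwb).1]
    have h0 := hdeg a
    rw [e1, e2, hrest] at h0
    by_cases h1 : adj G a b <;> by_cases h2 : adj G' a b <;> simp [h1, h2] at h0 ⊢
  refine ext_adj fun x y => ?_
  by_cases hS : adj (star2 a b) x y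
  · rw [adj_star2] at hS
    obtain ⟨hxy, hS⟩ := hS
    rcases hS with rfl | rfl | rfl | rfl
    · by_cases hy : y = b
      · subst hy; exact hcell
      · exact (hrow y (Ne.symm hxy) hy).1
    · by_cases hx : x = b
      · subst hx; rw [adj_comm, adj_comm (G := G')]; exact hcell
      · rw [adj_comm, adj_comm (G := G')]; exact (hrow x hxy hx).1
    · by_cases hy : y = a
      · subst hy; rw [adj_comm, adj_comm (G := G')]; exact hcell
      · exact (hrow y hy (Ne.symm hxy)).2
    · by_cases hx : x = a
      · subst hx; exact hcell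
      · rw [adj_comm, adj_comm (G := G')]; exact (hrow x hx hxy).2
  · exact (sdiff_eq_sdiff_iff.1 hGG') x y hS

/-- P5: exchanges in `Uset` are switches. -/
theorem P5 {a b x y : Fin n} (hab : a ≠ b) {G : Gr n}
    (hx : x ∈ Uset a b G) (hy : y ∈ Cset a b G \ Uset a b G) :
    dist4 a b x y ∧ swOK G a b x y ∧
      Uset a b (sw G a b x y) = insert y ((Uset a b G).erase x) := by
  rw [mem_Uset] at hx
  rw [mem_sdiff, mem_Cset, mem_Uset] at hy
  obtain ⟨hxa, hxb, hax, hbx⟩ := hx
  obtain ⟨⟨hya, hyb, hiff⟩, hnot⟩ := hy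
  have hay : ¬ adj G a y := by
    intro h; exact hnot ⟨hya, hyb, h, hiff.1 h⟩
  have hby : adj G b y := by
    by_contra h; exact hay (hiff.2 h)
  have hxy : x ≠ y := by rintro rfl; exact hay hax
  refine ⟨⟨hab, hxa.symm, hya.symm, hxb.symm, hyb.symm, hxy⟩, ⟨hax, hby, hay, hbx⟩, ?_⟩
  ext w
  simp only [mem_Uset, mem_insert, mem_erase, adj_sw]
  by_cases hwx : w = x
  · subst hwx
    simp [hxa, hxb, hxy, hab, hxa.symm, hxb.symm, hab.symm]
  · by_cases hwy : w = y
    · subst hwy
      simp [hya, hyb, hya.symm, hyb.symm, hab, hab.symm, hxy.symm, hay, hby]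
    · by_cases hwa : w = a
      · simp [hwa, hya.symm]
      · by_cases hwb : w = b
        · simp [hwb, hyb.symm]
        · have h1 : ¬ (a = w) := fun h => hwa h.symm
          have h2 : ¬ (b = w) := fun h => hwb h.symm
          simp [hwx, hwy, hwa, hwb, h1, h2, hab, hab.symm, hxa.symm, hya.symm, hxb.symm, hyb.symm]

end Crest.Agent.Switch.PF
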