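import Crest.Agent.Switch.PairDefs
import Crest.Agent.Switch.JohnsonFull

/-! # P6 of the `PairFibre` module: the fibre of `G ↦ G \ star2 a b` is a full Johnson scheme. -/

set_option autoImplicit false
open Finset Crest.SwitchChain

namespace Crest.Agent.Switch.PF

variable {n : ℕ}

/-- P6, with P1, P3, P5 as hypotheses. -/
theorem image_Uset_of (d : Fin n → ℕ) (a b : Fin n) (G : Gr n) (hG : G ∈ realizations d)
    (P1 : ∀ G' ∈ realizations d, G' \ star2 a b = G \ star2 a b → Cset a b G' = Cset a b G)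
    (P3 : ∀ G' ∈ realizations d, G' \ star2 a b = G \ star2 a b →
      (Uset a b G').card = (Uset a b G).card)
    (P5 : ∀ G' ∈ realizations d, ∀ x ∈ Uset a b G', ∀ y ∈ Cset a b G' \ Uset a b G',
      dist4 a b x y ∧ swOK G' a b x y ∧
        Uset a b (sw G' a b x y) = insert y ((Uset a b G').erase x)) :
    (fib (realizations d) (fun G => G \ star2 a b) G).image (Uset a b)
      = powersetCard (Uset a b G).card (Cset a b G) := by
  refine johnson_full _ _ _ ?_ ?_ ?_
  · intro U hU
    obtain ⟨G', hG', rfl⟩ := mem_image.1 hU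
    rw [mem_fib] at hG'
    rw [mem_powersetCard]
    exact ⟨(P1 G' hG'.1 hG'.2) ▸ Uset_subset_Cset a b G', P3 G' hG'.1 hG'.2⟩
  · exact ⟨_, mem_image_of_mem _ (self_mem_fib _ _ hG)⟩
  · intro U hU x hx y hy
    obtain ⟨G', hG', rfl⟩ := mem_image.1 hU
    rw [mem_fib] at hG'
    rw [← P1 G' hG'.1 hG'.2] at hy
    obtain ⟨h4, hok, hU'⟩ := P5 G' hG'.1 x hx y hy
    rw [← hU']
    refine mem_image_of_mem _ ?_
    rw [mem_fib]
    exact ⟨sw_mem_realizations h4 hok hG'.1, by
      show sw G' a b x y \ star2 a b = G \ star2 a b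
      rw [sw_sdiff_star2]; exact hG'.2⟩

end Crest.Agent.Switch.PF
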