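import Crest.Agent.Switch.TRMoves
import Crest.Agent.Switch.Biregular

/-!
# The 3-row lemma, case (ii): `E_a f` is `D`-Lipschitz along the "non-swap" switches
-/

set_option autoImplicit false
set_option linter.unusedSectionVars false
open Finset

namespace Crest.Agent.Switch.TRM

/-- biregular relation given by an indexed family of partial bijections. -/
theorem indexed_sum_le {α β ι : Type*} (A : Finset α) (P : Finset β)
    (X : α → Finset ι) (X' : β → Finset ι) (T : ι → α → β) (S : ι → β → α)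
    (f : α → ℝ) (g : β → ℝ) (p q : ℕ) (D : ℝ)
    (hp : ∀ v ∈ A, (X v).card = p) (hq : ∀ v' ∈ P, (X' v').card = q) (hq0 : 0 < q)
    (hT : ∀ v ∈ A, ∀ x ∈ X v, T x v ∈ P ∧ x ∈ X' (T x v))
    (hS : ∀ v' ∈ P, ∀ x ∈ X' v', S x v' ∈ A ∧ x ∈ X (S x v'))
    (hST : ∀ v ∈ A, ∀ x ∈ X v, S x (T x v) = v)
    (hTS : ∀ v' ∈ P, ∀ x ∈ X' v', T x (S x v') = v')
    (hD : ∀ v ∈ A, ∀ x ∈ X v, |f v - g (T x v)| ≤ D) :
    |(A.card : ℝ) * ∑ v' ∈ P, g v' - (P.card : ℝ) * ∑ v ∈ A, f v|
      ≤ (A.card : ℝ) * (P.card : ℝ) * D := by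
  classical
  have hq0' : (0 : ℝ) < q := by exact_mod_cast hq0
  have key : ∀ h : β → ℝ, ∑ v ∈ A, ∑ x ∈ X v, h (T x v) = (q : ℝ) * ∑ v' ∈ P, h v' := by
    intro h
    have h1 : ∑ v ∈ A, ∑ x ∈ X v, h (T x v) = ∑ v' ∈ P, ∑ _x ∈ X' v', h v' := by
      rw [sum_sigma', sum_sigma']
      refine sum_bij' (fun z _ => ⟨T z.2 z.1, z.2⟩) (fun z _ => ⟨S z.2 z.1, z.2⟩) ?_ ?_ ?_ ?_ ?_
      · rintro ⟨v, x⟩ hz
        rw [mem_sigma] at hz ⊢
        exact hT v hz.1 x hz.2
      · rintro ⟨v', x⟩ hz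
        rw [mem_sigma] at hz ⊢
        exact hS v' hz.1 x hz.2
      · rintro ⟨v, x⟩ hz
        rw [mem_sigma] at hz
        simp only [hST v hz.1 x hz.2]
      · rintro ⟨v', x⟩ hz
        rw [mem_sigma] at hz
        simp only [hTS v' hz.1 x hz.2]
      · rintro ⟨v, x⟩ _
        rfl
    rw [h1, mul_sum]
    refine sum_congr rfl fun v' hv' => ?_
    rw [sum_const, hq v' hv', nsmul_eq_mul]
  have e1 := key g
  have e2 : ∑ v ∈ A, ∑ _x ∈ X v, f v = (p : ℝ) * ∑ v ∈ A, f v := by
    rw [mul_sum]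
    refine sum_congr rfl fun v hv => ?_
    rw [sum_const, hp v hv, nsmul_eq_mul]
  have e3 : (p : ℝ) * A.card = (q : ℝ) * P.card := by
    have h1 := key (fun _ => 1)
    rw [sum_const, nsmul_eq_mul, mul_one] at h1
    rw [← h1, sum_congr rfl fun v hv => by rw [sum_const, hp v hv, nsmul_eq_mul, mul_one]]
    rw [sum_const, nsmul_eq_mul, mul_comm]
  have e4 : |(q : ℝ) * ∑ v' ∈ P, g v' - (p : ℝ) * ∑ v ∈ A, f v| ≤ (q : ℝ) * P.card * D := by
    rw [← e1, ← e2, ← sum_sub_distrib]
    calc |∑ v ∈ A, (∑ x ∈ X v, g (T x v) - ∑ _x ∈ X v, f v)|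
        ≤ ∑ v ∈ A, |∑ x ∈ X v, g (T x v) - ∑ _x ∈ X v, f v| := abs_sum_le_sum_abs _ _
      _ ≤ ∑ v ∈ A, (p : ℝ) * D := by
          refine sum_le_sum fun v hv => ?_
          rw [← sum_sub_distrib]
          calc |∑ x ∈ X v, (g (T x v) - f v)|
              ≤ ∑ x ∈ X v, |g (T x v) - f v| := abs_sum_le_sum_abs _ _
            _ ≤ ∑ _x ∈ X v, D := by
                refine sum_le_sum fun x hx => ?_
                rw [abs_sub_comm]
                exact hD v hv x hx
            _ = (p : ℝ) * D := by rw [sum_const, hp v hv, nsmul_eq_mul]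
      _ = (q : ℝ) * P.card * D := by
          rw [sum_const, nsmul_eq_mul, ← e3]; ring
  have e5 : (q : ℝ) * ((A.card : ℝ) * ∑ v' ∈ P, g v' - (P.card : ℝ) * ∑ v ∈ A, f v)
      = (A.card : ℝ) * ((q : ℝ) * ∑ v' ∈ P, g v' - (p : ℝ) * ∑ v ∈ A, f v) := by
    have : (q : ℝ) * (P.card : ℝ) * ∑ v ∈ A, f v = (p : ℝ) * A.card * ∑ v ∈ A, f v := by rw [e3]
    linear_combination -this
  have e6 : (q : ℝ) * |(A.card : ℝ) * ∑ v' ∈ P, g v' - (P.card : ℝ) * ∑ v ∈ A, f v|
      ≤ (q : ℝ) * ((A.card : ℝ) * (P.card : ℝ) * D) := by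
    rw [← abs_of_pos hq0', ← abs_mul, e5, abs_mul, abs_of_pos hq0',
      abs_of_nonneg (Nat.cast_nonneg A.card)]
    calc (A.card : ℝ) * |(q : ℝ) * ∑ v' ∈ P, g v' - (p : ℝ) * ∑ v ∈ A, f v|
        ≤ (A.card : ℝ) * ((q : ℝ) * P.card * D) :=
          mul_le_mul_of_nonneg_left e4 (Nat.cast_nonneg _)
      _ = (q : ℝ) * ((A.card : ℝ) * (P.card : ℝ) * D) := by ring
  exact le_of_mul_le_mul_left e6 hq0'

variable {J : Type*} [Fintype J] [DecidableEq J]

/-- flip a row at two places. -/
def flipRow (j j' : J) (ρ : J → Bool) : J → Bool := fun y => if y = j ∨ y = j' then !(ρ y) else ρ y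

theorem mv_row_left (a b : Fin 3) (j j' : J) (w : Fin 3 → J → Bool) :
    mv a b j j' w a = flipRow j j' (w a) := by
  funext y; simp [mv, flipRow]

variable {r : Fin 3 → ℕ} {c : J → ℕ}

/-- the number of columns with pattern `(1,0)` in rows `b, e` only depends on row `a`. -/
theorem card_10_eq {a b e : Fin 3} (hab : a ≠ b) (hae : a ≠ e) (hbe : b ≠ e)
    {u v : Fin 3 → J → Bool} (hu : IsTab r c u) (hv : IsTab r c v) (h : u a = v a) :
    (univ.filter fun x => u b x = true ∧ u e x = false).card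
      = (univ.filter fun x => v b x = true ∧ v e x = false).card := by
  have key : ∀ t : Fin 3 → J → Bool, IsTab r c t →
      (univ.filter fun x => t b x = true ∧ t e x = false).card
        + ∑ x, (t b x && t e x).toNat = r b := by
    intro t ht
    rw [← ht.1 b, card_filter, ← sum_add_distrib]
    refine sum_congr rfl fun x _ => ?_
    cases t b x <;> cases t e x <;> simp
  have h11 : ∀ x, (u b x && u e x) = (v b x && v e x) := by
    intro x
    have h1 := hu.col hab hae hbe x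
    have h2 := hv.col hab hae hbe x
    have hx := congrFun h x
    revert h1 h2 hx
    cases u a x <;> cases u b x <;> cases u e x <;> cases v a x <;> cases v b x <;>
      cases v e x <;> simp <;> omega
  have k1 := key u hu
  have k2 := key v hv
  simp only [h11] at k1
  omega

/-- the local configuration: columns `j = (1,0,0)`, `j' = (0,1,1)` in rows `a, b, e`. -/
structure Cfg (r : Fin 3 → ℕ) (c : J → ℕ) (a b e : Fin 3) (j j' : J)
    (w : Fin 3 → J → Bool) : Prop where
  hab : a ≠ b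
  hae : a ≠ e
  hbe : b ≠ e
  tab : IsTab r c w
  aj : w a j = true
  aj' : w a j' = false
  bj : w b j = false
  bj' : w b j' = true
  ej : w e j = false
  ej' : w e j' = true

namespace Cfg

variable {a b e : Fin 3} {j j' : J} {w : Fin 3 → J → Bool}

theorem symm (h : Cfg r c a b e j j' w) : Cfg r c a e b j j' w :=
  ⟨h.hae, h.hab, h.hbe.symm, h.tab, h.aj, h.aj', h.ej, h.ej', h.bj, h.bj'⟩

theorem ne (h : Cfg r c a b e j j' w) : j ≠ j' := by
  rintro rfl; have := h.aj; rw [h.aj'] at this; cases this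

theorem cj (h : Cfg r c a b e j j' w) : c j = 1 := by
  have := h.tab.col h.hab h.hae h.hbe j
  rw [h.aj, h.bj, h.ej] at this; simpa using this.symm

theorem cj' (h : Cfg r c a b e j j' w) : c j' = 2 := by
  have := h.tab.col h.hab h.hae h.hbe j'
  rw [h.aj', h.bj', h.ej'] at this; simpa using this.symm

theorem of_row (h : Cfg r c a b e j j' w) {v : Fin 3 → J → Bool} (hv : IsTab r c v)
    (hva : v a = w a) : Cfg r c a b e j j' v := by
  have h1 := hv.col h.hab h.hae h.hbe j
  have h2 := hv.col h.hab h.hae h.hbe j'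
  have a1 : v a j = true := by rw [hva]; exact h.aj
  have a2 : v a j' = false := by rw [hva]; exact h.aj'
  rw [h.cj, a1] at h1
  rw [h.cj', a2] at h2
  refine ⟨h.hab, h.hae, h.hbe, hv, a1, a2, ?_, ?_, ?_, ?_⟩
  · revert h1; cases v b j <;> cases v e j <;> simp
  · revert h2; cases v b j' <;> cases v e j' <;> simp
  · revert h1; cases v b j <;> cases v e j <;> simp
  · revert h2; cases v b j' <;> cases v e j' <;> simp

theorem ok (h : Cfg r c a b e j j' w) : mvOK a b j j' w := ⟨h.aj, h.aj', h.bj, h.bj'⟩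

/-- tables in the other fibre. -/
theorem other (h : Cfg r c a b e j j' w) {v : Fin 3 → J → Bool} (hv : IsTab r c v)
    (hva : v a = flipRow j j' (w a)) :
    v a j = false ∧ v a j' = true ∧ (v e j = !(v b j)) ∧ (v e j' = !(v b j')) := by
  have h1 := hv.col h.hab h.hae h.hbe j
  have h2 := hv.col h.hab h.hae h.hbe j'
  have a1 : v a j = false := by rw [hva]; simp [flipRow, h.aj]
  have a2 : v a j' = true := by rw [hva]; simp [flipRow, h.aj']
  rw [h.cj, a1] at h1
  rw [h.cj', a2] at h2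
  refine ⟨a1, a2, ?_, ?_⟩
  · revert h1; cases v b j <;> cases v e j <;> simp
  · revert h2; cases v b j' <;> cases v e j' <;> simp

end Cfg

section main

variable (Om : Finset (Fin 3 → J → Bool)) (hOm : ∀ w, w ∈ Om ↔ IsTab r c w)
  (f : (Fin 3 → J → Bool) → ℝ)
  (hs : ∀ v ∈ Om, ∀ j j', c j = c j' → f (csw j j' v) = f v) (D : ℝ)
  (hn : ∀ v ∈ Om, ∀ a b e j j', a ≠ b → a ≠ e → b ≠ e → mvOK a b j j' v → v e j ≠ v e j' →
    |f v - f (mv a b j j' v)| ≤ D)

include hOm hn in
/-- the part of the big fibre with `(b j, b j') = (1,0)`: bijection by the switch on rows `a,b`. -/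
theorem est_bij {a b e : Fin 3} {j j' : J} {w : Fin 3 → J → Bool} (h : Cfg r c a b e j j' w) :
    |((fib Om (fun w => w a) w).card : ℝ) *
        ∑ v' ∈ Om.filter (fun v' => v' a = flipRow j j' (w a) ∧ v' b j = true ∧ v' b j' = false),
          f v'
      - ((Om.filter (fun v' => v' a = flipRow j j' (w a) ∧ v' b j = true ∧ v' b j' = false)).card
          : ℝ) * ∑ v ∈ fib Om (fun w => w a) w, f v|
    ≤ ((fib Om (fun w => w a) w).card : ℝ) *
      ((Om.filter (fun v' => v' a = flipRow j j' (w a) ∧ v' b j = true ∧ v' b j' = false)).card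
          : ℝ) * D := by
  refine Bireg.bij_sum_le _ _ (mv a b j j') f f D ⟨?_, ?_, ?_⟩ ?_
  · intro v hv
    rw [mem_coe, mem_fib] at hv
    have hv' := h.of_row ((hOm v).1 hv.1) hv.2
    rw [mem_coe, mem_filter]
    refine ⟨(hOm _).2 (mv_isTab hv'.ok hv'.tab), ?_, ?_, ?_⟩
    · rw [mv_row_left, hv.2]
    · simp [mv, hv'.bj]
    · simp [mv, hv'.bj']
  · intro v _ v' _ hvv'
    have := congrArg (mv a b j j') hvv'
    simpa using this
  · intro v' hv'
    rw [mem_coe, mem_filter] at hv'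
    obtain ⟨hO, hva, hb1, hb2⟩ := hv'
    have ht := (hOm v').1 hO
    obtain ⟨a1, a2, -, -⟩ := h.other ht hva
    refine ⟨mv a b j j' v', ?_, by simp⟩
    rw [mem_coe, mem_fib]
    refine ⟨(hOm _).2 ?_, ?_⟩
    · rw [mv_comm_cols]
      exact mv_isTab ⟨a2, a1, hb2, hb1⟩ ht
    · rw [mv_row_left, hva]
      funext y
      simp only [flipRow]
      split_ifs <;> simp
  · intro v hv
    rw [mem_fib] at hv
    have hv' := h.of_row ((hOm v).1 hv.1) hv.2
    refine hn v hv.1 a b e j j' h.hab h.hae h.hbe hv'.ok ?_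
    rw [hv'.ej, hv'.ej']; simp

/-- the two-step path: column swap, then non-swap switch. -/
def Tx (a b e : Fin 3) (j j' : J) (ρ : J → Bool) (x : J) (v : Fin 3 → J → Bool) :
    Fin 3 → J → Bool :=
  if ρ x = true then mv a b j x (csw j' x v) else mv a e x j' (csw j x v)

/-- inverse of `Tx`. -/
def Sx (a b e : Fin 3) (j j' : J) (ρ : J → Bool) (x : J) (v : Fin 3 → J → Bool) :
    Fin 3 → J → Bool :=
  if ρ x = true then csw j' x (mv a b j x v) else csw j x (mv a e x j' v)

theorem Sx_Tx (a b e : Fin 3) (j j' : J) (ρ : J → Bool) (x : J) (v : Fin 3 → J → Bool) :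
    Sx a b e j j' ρ x (Tx a b e j j' ρ x v) = v := by
  unfold Sx Tx; split_ifs <;> simp

theorem Tx_Sx (a b e : Fin 3) (j j' : J) (ρ : J → Bool) (x : J) (v : Fin 3 → J → Bool) :
    Tx a b e j j' ρ x (Sx a b e j j' ρ x v) = v := by
  unfold Sx Tx; split_ifs <;> simp

/-- forward step. -/
theorem Tx_spec {a b e : Fin 3} {j j' : J} {w v : Fin 3 → J → Bool} (h : Cfg r c a b e j j' v)
    (hva : v a = w a) {x : J} (hbx : v b x = true) (hex : v e x = false) :
    IsTab r c (Tx a b e j j' (w a) x v) ∧ Tx a b e j j' (w a) x v a = flipRow j j' (w a)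
      ∧ Tx a b e j j' (w a) x v b j = true ∧ Tx a b e j j' (w a) x v b j' = true
      ∧ Tx a b e j j' (w a) x v e x = true ∧ Tx a b e j j' (w a) x v b x = false := by
  have hxj : x ≠ j := by rintro rfl; rw [h.bj] at hbx; cases hbx
  have hxj' : x ≠ j' := by rintro rfl; rw [h.ej'] at hex; cases hex
  have hjj' := h.ne
  have hcol := h.tab.col h.hab h.hae h.hbe x
  rw [hbx, hex] at hcol
  unfold Tx
  by_cases hax : w a x = true
  · have hvx : v a x = true := by rw [hva]; exact hax
    rw [if_pos hax]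
    have hc : c j' = c x := by rw [h.cj', ← hcol, hvx]; rfl
    have hu := csw_isTab hc h.tab
    have hok : mvOK a b j x (csw j' x v) := by
      refine ⟨?_, ?_, ?_, ?_⟩
      · rw [csw_apply, Equiv.swap_apply_of_ne_of_ne hjj' hxj.symm]; exact h.aj
      · rw [csw_apply, Equiv.swap_apply_right]; exact h.aj'
      · rw [csw_apply, Equiv.swap_apply_of_ne_of_ne hjj' hxj.symm]; exact h.bj
      · rw [csw_apply, Equiv.swap_apply_right]; exact h.bj'
    refine ⟨mv_isTab hok hu, ?_, ?_, ?_, ?_, ?_⟩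
    · funext y
      rw [← hva]
      by_cases h1 : y = j
      · subst h1; simp [mv, csw, flipRow, Equiv.swap_apply_of_ne_of_ne hjj' hxj.symm, h.aj]
      by_cases h2 : y = j'
      · subst h2; simp [mv, csw, flipRow, hjj'.symm, hxj'.symm, h.aj', hvx]
      by_cases h3 : y = x
      · subst h3; simp [mv, csw, flipRow, hxj, hxj', h.aj', hvx]
      · simp [mv, csw, flipRow, h1, h2, h3, Equiv.swap_apply_of_ne_of_ne h2 h3]
    · simp [mv, csw, Equiv.swap_apply_of_ne_of_ne hjj' hxj.symm, h.bj]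
    · simp [mv, csw, hjj'.symm, hxj'.symm, hbx]
    · simp [mv, csw, h.hae.symm, h.hbe.symm, h.ej']
    · simp [mv, csw, h.bj']
  · have hax' : w a x = false := by simpa using hax
    have hvx : v a x = false := by rw [hva]; exact hax'
    rw [if_neg hax]
    have hc : c j = c x := by rw [h.cj, ← hcol, hvx]; rfl
    have hu := csw_isTab hc h.tab
    have hok : mvOK a e x j' (csw j x v) := by
      refine ⟨?_, ?_, ?_, ?_⟩
      · rw [csw_apply, Equiv.swap_apply_right]; exact h.aj
      · rw [csw_apply, Equiv.swap_apply_of_ne_of_ne hjj'.symm hxj'.symm]; exact h.aj'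
      · rw [csw_apply, Equiv.swap_apply_right]; exact h.ej
      · rw [csw_apply, Equiv.swap_apply_of_ne_of_ne hjj'.symm hxj'.symm]; exact h.ej'
    refine ⟨mv_isTab hok hu, ?_, ?_, ?_, ?_, ?_⟩
    · funext y
      rw [← hva]
      by_cases h1 : y = j
      · subst h1; simp [mv, csw, flipRow, hxj.symm, hjj', h.aj, hvx]
      by_cases h2 : y = j'
      · subst h2
        simp [mv, csw, flipRow, Equiv.swap_apply_of_ne_of_ne hjj'.symm hxj'.symm, h.aj']
      by_cases h3 : y = x
      · subst h3; simp [mv, csw, flipRow, hxj, hxj', h.aj, hvx]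
      · simp [mv, csw, flipRow, h1, h2, h3, Equiv.swap_apply_of_ne_of_ne h1 h3]
    · simp [mv, csw, h.hab.symm, h.hbe, hbx]
    · simp [mv, csw, h.hab.symm, h.hbe, Equiv.swap_apply_of_ne_of_ne hjj'.symm hxj'.symm, h.bj']
    · simp [mv, csw, h.ej]
    · simp [mv, csw, h.hab.symm, h.hbe, h.bj]

include hOm hs hn in
/-- `f` changes by at most `D` along the two-step path. -/
theorem Tx_bound {a b e : Fin 3} {j j' : J} {w v : Fin 3 → J → Bool} (h : Cfg r c a b e j j' v)
    (hva : v a = w a) {x : J} (hbx : v b x = true) (hex : v e x = false) :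
    |f v - f (Tx a b e j j' (w a) x v)| ≤ D := by
  have hxj : x ≠ j := by rintro rfl; rw [h.bj] at hbx; cases hbx
  have hxj' : x ≠ j' := by rintro rfl; rw [h.ej'] at hex; cases hex
  have hjj' := h.ne
  have hcol := h.tab.col h.hab h.hae h.hbe x
  rw [hbx, hex] at hcol
  have hvO : v ∈ Om := (hOm v).2 h.tab
  unfold Tx
  by_cases hax : w a x = true
  · have hvx : v a x = true := by rw [hva]; exact hax
    rw [if_pos hax]
    have hc : c j' = c x := by rw [h.cj', ← hcol, hvx]; rfl
    have hu := csw_isTab hc h.tab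
    have hok : mvOK a b j x (csw j' x v) := by
      refine ⟨?_, ?_, ?_, ?_⟩
      · rw [csw_apply, Equiv.swap_apply_of_ne_of_ne hjj' hxj.symm]; exact h.aj
      · rw [csw_apply, Equiv.swap_apply_right]; exact h.aj'
      · rw [csw_apply, Equiv.swap_apply_of_ne_of_ne hjj' hxj.symm]; exact h.bj
      · rw [csw_apply, Equiv.swap_apply_right]; exact h.bj'
    rw [← hs v hvO j' x hc]
    refine hn _ ((hOm _).2 hu) a b e j x h.hab h.hae h.hbe hok ?_
    rw [csw_apply, csw_apply, Equiv.swap_apply_of_ne_of_ne hjj' hxj.symm, Equiv.swap_apply_right,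
      h.ej, h.ej']
    simp
  · have hax' : w a x = false := by simpa using hax
    have hvx : v a x = false := by rw [hva]; exact hax'
    rw [if_neg hax]
    have hc : c j = c x := by rw [h.cj, ← hcol, hvx]; rfl
    have hu := csw_isTab hc h.tab
    have hok : mvOK a e x j' (csw j x v) := by
      refine ⟨?_, ?_, ?_, ?_⟩
      · rw [csw_apply, Equiv.swap_apply_right]; exact h.aj
      · rw [csw_apply, Equiv.swap_apply_of_ne_of_ne hjj'.symm hxj'.symm]; exact h.aj'
      · rw [csw_apply, Equiv.swap_apply_right]; exact h.ej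
      · rw [csw_apply, Equiv.swap_apply_of_ne_of_ne hjj'.symm hxj'.symm]; exact h.ej'
    rw [← hs v hvO j x hc]
    refine hn _ ((hOm _).2 hu) a e b x j' h.hae h.hab h.hbe.symm hok ?_
    rw [csw_apply, csw_apply, Equiv.swap_apply_of_ne_of_ne hjj'.symm hxj'.symm,
      Equiv.swap_apply_right, h.bj, h.bj']
    simp

/-- backward step. -/
theorem Sx_spec {a b e : Fin 3} {j j' : J} {w v : Fin 3 → J → Bool} (h : Cfg r c a b e j j' w)
    (ht : IsTab r c v) (hva : v a = flipRow j j' (w a)) (hb1 : v b j = true) (hb2 : v b j' = true)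
    {x : J} (hex : v e x = true) (hbx : v b x = false) :
    IsTab r c (Sx a b e j j' (w a) x v) ∧ Sx a b e j j' (w a) x v a = w a
      ∧ Sx a b e j j' (w a) x v b x = true ∧ Sx a b e j j' (w a) x v e x = false := by
  obtain ⟨a1, a2, e1, e2⟩ := h.other ht hva
  rw [hb1] at e1
  rw [hb2] at e2
  simp only [Bool.not_true] at e1 e2
  have hxj : x ≠ j := by rintro rfl; rw [hb1] at hbx; cases hbx
  have hxj' : x ≠ j' := by rintro rfl; rw [hb2] at hbx; cases hbx
  have hjj' := h.ne
  have hcol := ht.col h.hab h.hae h.hbe x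
  rw [hbx, hex] at hcol
  have hvx : v a x = w a x := by rw [hva]; simp [flipRow, hxj, hxj']
  have hvy : ∀ y, y ≠ j → y ≠ j' → v a y = w a y := by
    intro y h1 h2; rw [hva]; simp [flipRow, h1, h2]
  unfold Sx
  by_cases hax : w a x = true
  · rw [hax] at hvx
    rw [if_pos hax]
    have hc : c j' = c x := by rw [h.cj', ← hcol, hvx]; rfl
    have hok : mvOK a b x j v := ⟨hvx, a1, hbx, hb1⟩
    have hu : IsTab r c (mv a b j x v) := by rw [mv_comm_cols]; exact mv_isTab hok ht
    refine ⟨csw_isTab hc hu, ?_, ?_, ?_⟩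
    · funext y
      by_cases h1 : y = j
      · subst h1
        simp [mv, csw, Equiv.swap_apply_of_ne_of_ne hjj' hxj.symm, h.aj, a1]
      by_cases h2 : y = j'
      · subst h2; simp [mv, csw, h.aj', hvx]
      by_cases h3 : y = x
      · subst h3; simp [mv, csw, hjj'.symm, hxj'.symm, a2, hax]
      · simp [mv, csw, h1, h2, h3, Equiv.swap_apply_of_ne_of_ne h2 h3, hvy y h1 h2]
    · simp [mv, csw, hjj'.symm, hxj'.symm, hb2]
    · simp [mv, csw, h.hae.symm, h.hbe.symm, e2]
  · have hax' : w a x = false := by simpa using hax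
    rw [hax'] at hvx
    rw [if_neg hax]
    have hc : c j = c x := by rw [h.cj, ← hcol, hvx]; rfl
    have hok : mvOK a e j' x v := ⟨a2, hvx, e2, hex⟩
    have hu : IsTab r c (mv a e x j' v) := by rw [mv_comm_cols]; exact mv_isTab hok ht
    refine ⟨csw_isTab hc hu, ?_, ?_, ?_⟩
    · funext y
      by_cases h1 : y = j
      · subst h1; simp [mv, csw, h.aj, hvx]
      by_cases h2 : y = j'
      · subst h2
        simp [mv, csw, Equiv.swap_apply_of_ne_of_ne hjj'.symm hxj'.symm, h.aj', a2]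
      by_cases h3 : y = x
      · subst h3; simp [mv, csw, hxj.symm, hjj', a1, hax']
      · simp [mv, csw, h1, h2, h3, Equiv.swap_apply_of_ne_of_ne h1 h3, hvy y h1 h2]
    · simp [mv, csw, h.hab.symm, h.hbe, hb1]
    · simp [mv, csw, hxj.symm, hjj', e1]

include hOm hs hn in
/-- the part of the big fibre with `(b j, b j') = (1,1)`: biregular relation. -/
theorem est_reg {a b e : Fin 3} {j j' : J} {w : Fin 3 → J → Bool} (h : Cfg r c a b e j j' w) :
    |((fib Om (fun w => w a) w).card : ℝ) *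
        ∑ v' ∈ Om.filter (fun v' => v' a = flipRow j j' (w a) ∧ v' b j = true ∧ v' b j' = true),
          f v'
      - ((Om.filter (fun v' => v' a = flipRow j j' (w a) ∧ v' b j = true ∧ v' b j' = true)).card
          : ℝ) * ∑ v ∈ fib Om (fun w => w a) w, f v|
    ≤ ((fib Om (fun w => w a) w).card : ℝ) *
      ((Om.filter (fun v' => v' a = flipRow j j' (w a) ∧ v' b j = true ∧ v' b j' = true)).card
          : ℝ) * D := by
  refine indexed_sum_le _ _ (fun v => univ.filter fun x => v b x = true ∧ v e x = false)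
    (fun v' => univ.filter fun x => v' e x = true ∧ v' b x = false)
    (Tx a b e j j' (w a)) (Sx a b e j j' (w a)) f f
    (univ.filter fun x => w b x = true ∧ w e x = false).card
    (univ.filter fun x => mv a b j j' w e x = true ∧ mv a b j j' w b x = false).card D
    ?_ ?_ ?_ ?_ ?_ ?_ ?_ ?_
  · intro v hv
    rw [mem_fib] at hv
    exact card_10_eq h.hab h.hae h.hbe ((hOm v).1 hv.1) h.tab hv.2
  · intro v' hv'
    rw [mem_filter] at hv'
    refine card_10_eq h.hae h.hab h.hbe.symm ((hOm v').1 hv'.1) (mv_isTab h.ok h.tab) ?_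
    rw [hv'.2.1, mv_row_left]
  · refine card_pos.2 ⟨j', ?_⟩
    rw [mem_filter]
    refine ⟨mem_univ _, ?_, ?_⟩
    · simp [mv, h.hae.symm, h.hbe.symm, h.ej']
    · simp [mv, h.bj']
  · intro v hv x hx
    rw [mem_fib] at hv
    rw [mem_filter] at hx
    have hv' := h.of_row ((hOm v).1 hv.1) hv.2
    obtain ⟨t1, t2, t3, t4, t5, t6⟩ := Tx_spec hv' hv.2 hx.2.1 hx.2.2
    rw [mem_filter, mem_filter]
    exact ⟨⟨(hOm _).2 t1, t2, t3, t4⟩, mem_univ _, t5, t6⟩
  · intro v' hv' x hx
    rw [mem_filter] at hv' hx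
    obtain ⟨t1, t2, t3, t4⟩ := Sx_spec h ((hOm v').1 hv'.1) hv'.2.1 hv'.2.2.1 hv'.2.2.2 hx.2.1 hx.2.2
    rw [mem_fib, mem_filter]
    exact ⟨⟨(hOm _).2 t1, t2⟩, mem_univ _, t3, t4⟩
  · intro v _ x _
    exact Sx_Tx _ _ _ _ _ _ _ _
  · intro v' _ x _
    exact Tx_Sx _ _ _ _ _ _ _ _
  · intro v hv x hx
    rw [mem_fib] at hv
    rw [mem_filter] at hx
    have hv' := h.of_row ((hOm v).1 hv.1) hv.2
    exact Tx_bound Om hOm f hs D hn hv' hv.2 hx.2.1 hx.2.2

include hOm hs hn in
/-- case (ii) in the normalised configuration. -/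
theorem caseN_cfg {a b e : Fin 3} {j j' : J} {w : Fin 3 → J → Bool} (h : Cfg r c a b e j j' w) :
    |ce Om (fun w => w a) f w - ce Om (fun w => w a) f (mv a b j j' w)| ≤ D := by
  have hw : w ∈ Om := (hOm w).2 h.tab
  have hw' : mv a b j j' w ∈ Om := (hOm _).2 (mv_isTab h.ok h.tab)
  unfold ce
  refine Bireg.avg_sub_avg_le _ _ f f D ⟨w, self_mem_fib _ _ hw⟩ ⟨_, self_mem_fib _ _ hw'⟩ ?_
  refine Bireg.glue_sum_le _ _ (fun v' => (v' b j, v' b j')) f f D ?_
  have hset : ∀ k1 k2 : Bool,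
      (fib Om (fun w => w a) (mv a b j j' w)).filter (fun v' => (v' b j, v' b j') = (k1, k2))
        = Om.filter (fun v' => v' a = flipRow j j' (w a) ∧ v' b j = k1 ∧ v' b j' = k2) := by
    intro k1 k2
    ext v'
    simp only [mem_filter, mem_fib, mv_row_left, Prod.mk.injEq, and_assoc]
  have hset' : ∀ k1 k2 : Bool,
      Om.filter (fun v' => v' a = flipRow j j' (w a) ∧ v' b j = k1 ∧ v' b j' = k2)
        = Om.filter (fun v' => v' a = flipRow j j' (w a) ∧ v' e j = !k1 ∧ v' e j' = !k2) := by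
    intro k1 k2
    ext v'
    simp only [mem_filter]
    constructor
    · rintro ⟨hO, hva, h1, h2⟩
      obtain ⟨-, -, e1, e2⟩ := h.other ((hOm v').1 hO) hva
      exact ⟨hO, hva, by rw [e1, h1], by rw [e2, h2]⟩
    · rintro ⟨hO, hva, h1, h2⟩
      obtain ⟨-, -, e1, e2⟩ := h.other ((hOm v').1 hO) hva
      refine ⟨hO, hva, ?_, ?_⟩
      · rw [e1] at h1; simpa using h1
      · rw [e2] at h2; simpa using h2
  rintro ⟨k1, k2⟩
  rw [hset]
  cases k1 <;> cases k2
  · rw [hset']; exact est_reg Om hOm f hs D hn h.symm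
  · rw [hset']; exact est_bij Om hOm f D hn h.symm
  · exact est_bij Om hOm f D hn h
  · exact est_reg Om hOm f hs D hn h

include hOm hs hn in
/-- **Case (ii) of the 3-row lemma.** -/
theorem caseN : ∀ w ∈ Om, ∀ a b e j j', a ≠ b → a ≠ e → b ≠ e → mvOK a b j j' w → w e j ≠ w e j' →
    |ce Om (fun w => w a) f w - ce Om (fun w => w a) f (mv a b j j' w)| ≤ D := by
  intro w hw a b e j j' hab hae hbe hok hne
  have ht := (hOm w).1 hw
  by_cases hej : w e j = true
  · have hej' : w e j' = false := by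
      rw [hej] at hne; cases hh : w e j'
      · rfl
      · exact absurd hh.symm hne
    have hok' := mvOK_mv hok
    have hrow : mv a b j j' w e = w e := mv_row_of_ne j j' w hae.symm hbe.symm
    have hcfg : Cfg r c a b e j' j (mv a b j j' w) :=
      ⟨hab, hae, hbe, mv_isTab hok ht, hok'.1, hok'.2.1, hok'.2.2.1, hok'.2.2.2,
        by rw [hrow]; exact hej', by rw [hrow]; exact hej⟩
    have := caseN_cfg Om hOm f hs D hn hcfg
    rw [mv_comm_cols a b j' j, mv_mv, abs_sub_comm] at this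
    exact this
  · have hej0 : w e j = false := by simpa using hej
    have hej' : w e j' = true := by
      rw [hej0] at hne; cases hh : w e j'
      · exact absurd hh.symm hne
      · rfl
    exact caseN_cfg Om hOm f hs D hn
      ⟨hab, hae, hbe, ht, hok.1, hok.2.1, hok.2.2.1, hok.2.2.2, hej0, hej'⟩

end main

end Crest.Agent.Switch.TRM
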