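import Crest.Agent.Switch.TRMoves
import Crest.Agent.Switch.Biregular

/-!
# Case (ii) of the 3-row lemma (n-type moves): independent backup (helper20)
-/

set_option autoImplicit false
set_option linter.unusedSectionVars false
set_option linter.unusedVariables false
open Finset

namespace Crest.Agent.Switch.TRN20

open Crest.Agent.Switch Crest.Agent.Switch.TRM Crest.Agent.Switch.Bireg

variable {J : Type*} [Fintype J] [DecidableEq J]

theorem fin3_cases {a b e : Fin 3} (hab : a ≠ b) (hae : a ≠ e) (hbe : b ≠ e) (i : Fin 3) :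
    i = a ∨ i = b ∨ i = e := by
  revert a b e i; decide

theorem mv_hit {a b : Fin 3} {j j' : J} (w : Fin 3 → J → Bool) {i : Fin 3} {y : J}
    (hi : i = a ∨ i = b) (hy : y = j ∨ y = j') : mv a b j j' w i y = !(w i y) := by
  simp [mv, hi, hy]

theorem mv_miss_row {a b : Fin 3} {j j' : J} (w : Fin 3 → J → Bool) {i : Fin 3} (y : J)
    (h1 : i ≠ a) (h2 : i ≠ b) : mv a b j j' w i y = w i y := by
  simp [mv, h1, h2]

theorem mv_miss_col {a b : Fin 3} {j j' : J} (w : Fin 3 → J → Bool) (i : Fin 3) {y : J}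
    (h1 : y ≠ j) (h2 : y ≠ j') : mv a b j j' w i y = w i y := by
  simp [mv, h1, h2]

theorem sum_toNat (β : J → Bool) : ∑ x, (β x).toNat = (univ.filter fun x => β x = true).card := by
  rw [card_filter]
  refine sum_congr rfl fun x _ => ?_
  cases β x <;> simp

/-- number of columns where row `b` has a one and row `e` a zero. -/
theorem card_b_not_e {r : Fin 3 → ℕ} {c : J → ℕ} {v : Fin 3 → J → Bool} (hv : IsTab r c v)
    {a b e : Fin 3} (hab : a ≠ b) (hae : a ≠ e) (hbe : b ≠ e) :
    (univ.filter fun x => v b x = true ∧ v e x = false).card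
      + (univ.filter fun x => c x = (v a x).toNat + 2).card = r b := by
  rw [← hv.1 b, sum_toNat]
  have h2 : (univ.filter fun x => c x = (v a x).toNat + 2)
      = univ.filter fun x => v b x = true ∧ v e x = true := by
    ext x
    simp only [mem_filter, mem_univ, true_and]
    have := hv.col hab hae hbe x
    rw [← this]
    cases v a x <;> cases v b x <;> cases v e x <;> simp
  rw [h2, ← card_union_of_disjoint]
  · congr 1
    ext x
    simp only [mem_filter, mem_univ, true_and, mem_union]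
    cases v b x <;> cases v e x <;> simp
  · rw [disjoint_filter]
    intro x _ h1 h2
    rw [h1.2] at h2
    exact absurd h2.2 (by simp)


/-- the local configuration: column `j` is `(1,0,0)`, column `j'` is `(0,1,1)` (rows `a,b,e`). -/
structure Cfg (a b e : Fin 3) (j j' : J) (w : Fin 3 → J → Bool) : Prop where
  aj : w a j = true
  aj' : w a j' = false
  bj : w b j = false
  bj' : w b j' = true
  ej : w e j = false
  ej' : w e j' = true

theorem Cfg.symm {a b e : Fin 3} {j j' : J} {w : Fin 3 → J → Bool} (h : Cfg a b e j j' w) :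
    Cfg a e b j j' w := ⟨h.aj, h.aj', h.ej, h.ej', h.bj, h.bj'⟩

theorem Cfg.ne {a b e : Fin 3} {j j' : J} {w : Fin 3 → J → Bool} (h : Cfg a b e j j' w) :
    j ≠ j' := by
  rintro rfl; have := h.aj; rw [h.aj'] at this; cases this

theorem Cfg.ok {a b e : Fin 3} {j j' : J} {w : Fin 3 → J → Bool} (h : Cfg a b e j j' w) :
    mvOK a b j j' w := ⟨h.aj, h.aj', h.bj, h.bj'⟩

theorem Cfg.cj {r : Fin 3 → ℕ} {c : J → ℕ} {a b e : Fin 3} {j j' : J} {w : Fin 3 → J → Bool}
    (h : Cfg a b e j j' w) (hw : IsTab r c w) (hab : a ≠ b) (hae : a ≠ e) (hbe : b ≠ e) :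
    c j = 1 := by
  rw [← hw.col hab hae hbe j, h.aj, h.bj, h.ej]; rfl

theorem Cfg.cj' {r : Fin 3 → ℕ} {c : J → ℕ} {a b e : Fin 3} {j j' : J} {w : Fin 3 → J → Bool}
    (h : Cfg a b e j j' w) (hw : IsTab r c w) (hab : a ≠ b) (hae : a ≠ e) (hbe : b ≠ e) :
    c j' = 2 := by
  rw [← hw.col hab hae hbe j', h.aj', h.bj', h.ej']; rfl

/-- every table with the same row `a` has the same local configuration. -/
theorem cfg_of_row {r : Fin 3 → ℕ} {c : J → ℕ} {a b e : Fin 3} {j j' : J}
    {w v : Fin 3 → J → Bool} (h : Cfg a b e j j' w) (hw : IsTab r c w) (hv : IsTab r c v)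
    (hab : a ≠ b) (hae : a ≠ e) (hbe : b ≠ e) (hva : v a = w a) : Cfg a b e j j' v := by
  have h1 := hv.col hab hae hbe j
  have h2 := hv.col hab hae hbe j'
  rw [h.cj hw hab hae hbe, hva, h.aj] at h1
  rw [h.cj' hw hab hae hbe, hva, h.aj'] at h2
  refine ⟨by rw [hva, h.aj], by rw [hva, h.aj'], ?_, ?_, ?_, ?_⟩
  · revert h1; cases v b j <;> cases v e j <;> simp
  · revert h2; cases v b j' <;> cases v e j' <;> simp
  · revert h1; cases v b j <;> cases v e j <;> simp
  · revert h2; cases v b j' <;> cases v e j' <;> simp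

theorem mv_row_a {a b b' : Fin 3} {j j' : J} {w v : Fin 3 → J → Bool} (hva : v a = w a) :
    mv a b j j' v a = mv a b' j j' w a := by
  funext y
  simp [mv, hva]

/-- in the fibre of the flipped row, rows `b` and `e` are complementary on `j` and `j'`. -/
theorem compl_of_row {r : Fin 3 → ℕ} {c : J → ℕ} {a b e : Fin 3} {j j' : J}
    {w v : Fin 3 → J → Bool} (h : Cfg a b e j j' w) (hw : IsTab r c w) (hv : IsTab r c v)
    (hab : a ≠ b) (hae : a ≠ e) (hbe : b ≠ e) (hva : v a = mv a b j j' w a) :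
    v a j = false ∧ v a j' = true ∧ v e j = !(v b j) ∧ v e j' = !(v b j') := by
  have h1 := hv.col hab hae hbe j
  have h2 := hv.col hab hae hbe j'
  have e1 : v a j = false := by rw [hva, mv_hit w (Or.inl rfl) (Or.inl rfl), h.aj]; rfl
  have e2 : v a j' = true := by rw [hva, mv_hit w (Or.inl rfl) (Or.inr rfl), h.aj']; rfl
  rw [h.cj hw hab hae hbe, e1] at h1
  rw [h.cj' hw hab hae hbe, e2] at h2
  refine ⟨e1, e2, ?_, ?_⟩
  · revert h1; cases v b j <;> cases v e j <;> simp
  · revert h2; cases v b j' <;> cases v e j' <;> simp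



theorem T_csw_false {a b e : Fin 3} {j j' x : J} {v : Fin 3 → J → Bool}
    (hab : a ≠ b) (hae : a ≠ e) (hbe : b ≠ e) (h : Cfg a b e j j' v)
    (hbx : v b x = true) (hex : v e x = false) (hax : v a x = false) :
    csw x j (mv b e x j' (mv a b j j' v)) = mv a e j j' v := by
  have hjj := h.ne
  have hxj : x ≠ j := by rintro rfl; rw [h.bj] at hbx; cases hbx
  have hxj' : x ≠ j' := by rintro rfl; rw [h.ej'] at hex; cases hex
  obtain ⟨h1, h2, h3, h4, h5, h6⟩ := h
  have s1 := hab.symm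
  have s2 := hae.symm
  have s3 := hbe.symm
  have s4 := hjj.symm
  have s5 := hxj.symm
  have s6 := hxj'.symm
  funext i y
  simp only [csw, mv, Equiv.swap_apply_def]
  rcases fin3_cases hab hae hbe i with rfl | rfl | rfl <;> by_cases hyj : y = j <;>
    by_cases hyj' : y = j' <;> by_cases hyx : y = x <;> simp_all

theorem T_csw_true {a b e : Fin 3} {j j' x : J} {v : Fin 3 → J → Bool}
    (hab : a ≠ b) (hae : a ≠ e) (hbe : b ≠ e) (h : Cfg a b e j j' v)
    (hbx : v b x = true) (hex : v e x = false) (hax : v a x = true) :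
    csw x j' (mv b e x j' (mv a b j j' v)) = mv a b j j' v := by
  have hjj := h.ne
  have hxj : x ≠ j := by rintro rfl; rw [h.bj] at hbx; cases hbx
  have hxj' : x ≠ j' := by rintro rfl; rw [h.ej'] at hex; cases hex
  obtain ⟨h1, h2, h3, h4, h5, h6⟩ := h
  have s1 := hab.symm
  have s2 := hae.symm
  have s3 := hbe.symm
  have s4 := hjj.symm
  have s5 := hxj.symm
  have s6 := hxj'.symm
  funext i y
  simp only [csw, mv, Equiv.swap_apply_def]
  rcases fin3_cases hab hae hbe i with rfl | rfl | rfl <;> by_cases hyj : y = j <;>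
    by_cases hyj' : y = j' <;> by_cases hyx : y = x <;> simp_all


theorem T_mem {r : Fin 3 → ℕ} {c : J → ℕ} {a b e : Fin 3} {j j' x : J} {v : Fin 3 → J → Bool}
    (hab : a ≠ b) (hae : a ≠ e) (hbe : b ≠ e) (h : Cfg a b e j j' v) (hv : IsTab r c v)
    (hbx : v b x = true) (hex : v e x = false) :
    IsTab r c (mv b e x j' (mv a b j j' v)) ∧
      mv b e x j' (mv a b j j' v) a = mv a b j j' v a ∧
      mv b e x j' (mv a b j j' v) b j = true ∧ mv b e x j' (mv a b j j' v) b j' = true ∧
      mv b e x j' (mv a b j j' v) b x = false ∧ mv b e x j' (mv a b j j' v) e x = true := by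
  have hjj := h.ne
  have hxj : x ≠ j := by rintro rfl; rw [h.bj] at hbx; cases hbx
  have hxj' : x ≠ j' := by rintro rfl; rw [h.ej'] at hex; cases hex
  have hu : IsTab r c (mv a b j j' v) := mv_isTab h.ok hv
  have u1 : mv a b j j' v b x = true := by rw [mv_miss_col v b hxj hxj', hbx]
  have u2 : mv a b j j' v b j' = false := by
    rw [mv_hit v (Or.inr rfl) (Or.inr rfl), h.bj']; rfl
  have u3 : mv a b j j' v e x = false := by rw [mv_miss_row v x hae.symm hbe.symm, hex]
  have u4 : mv a b j j' v e j' = true := by rw [mv_miss_row v j' hae.symm hbe.symm, h.ej']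
  have u5 : mv a b j j' v b j = true := by
    rw [mv_hit v (Or.inr rfl) (Or.inl rfl), h.bj]; rfl
  have hok : mvOK b e x j' (mv a b j j' v) := ⟨u1, u2, u3, u4⟩
  refine ⟨mv_isTab hok hu, mv_row_of_ne _ _ _ hab hae, ?_, ?_, ?_, ?_⟩
  · rw [mv_miss_col _ b hxj.symm hjj, u5]
  · rw [mv_hit _ (Or.inl rfl) (Or.inr rfl), u2]; rfl
  · rw [mv_hit _ (Or.inl rfl) (Or.inl rfl), u1]; rfl
  · rw [mv_hit _ (Or.inr rfl) (Or.inl rfl), u3]; rfl

theorem T'_mem {r : Fin 3 → ℕ} {c : J → ℕ} {a b e : Fin 3} {j j' x : J} {v : Fin 3 → J → Bool}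
    (hab : a ≠ b) (hae : a ≠ e) (hbe : b ≠ e) (hjj : j ≠ j') (hv : IsTab r c v)
    (h1 : v a j = false) (h2 : v a j' = true) (h3 : v b j = true) (h4 : v b j' = true)
    (h5 : v e j = false) (h6 : v e j' = false)
    (hex : v e x = true) (hbx : v b x = false) :
    IsTab r c (mv a b j j' (mv b e x j' v)) ∧
      mv a b j j' (mv b e x j' v) a = mv a b j j' v a ∧
      mv a b j j' (mv b e x j' v) b x = true ∧ mv a b j j' (mv b e x j' v) e x = false := by
  have hxj : x ≠ j := by rintro rfl; rw [h5] at hex; cases hex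
  have hxj' : x ≠ j' := by rintro rfl; rw [h6] at hex; cases hex
  have hok : mvOK b e j' x v := ⟨h4, hbx, h6, hex⟩
  have hu : IsTab r c (mv b e x j' v) := by rw [mv_comm_cols]; exact mv_isTab hok hv
  have u1 : mv b e x j' v a j' = true := by rw [mv_miss_row v j' hab hae, h2]
  have u2 : mv b e x j' v a j = false := by rw [mv_miss_row v j hab hae, h1]
  have u3 : mv b e x j' v b j' = false := by
    rw [mv_hit v (Or.inl rfl) (Or.inr rfl), h4]; rfl
  have u4 : mv b e x j' v b j = true := by rw [mv_miss_col v b hxj.symm hjj, h3]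
  have u5 : mv b e x j' v b x = true := by
    rw [mv_hit v (Or.inl rfl) (Or.inl rfl), hbx]; rfl
  have u6 : mv b e x j' v e x = false := by
    rw [mv_hit v (Or.inr rfl) (Or.inl rfl), hex]; rfl
  have hok2 : mvOK a b j' j (mv b e x j' v) := ⟨u1, u2, u3, u4⟩
  refine ⟨by rw [mv_comm_cols]; exact mv_isTab hok2 hu, ?_, ?_, ?_⟩
  · exact mv_row_a (mv_row_of_ne _ _ _ hab hae)
  · rw [mv_miss_col _ b hxj hxj', u5]
  · rw [mv_miss_row _ x hae.symm hbe.symm, u6]


section classes

variable {r : Fin 3 → ℕ} {c : J → ℕ} (Om : Finset (Fin 3 → J → Bool))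
  (hOm : ∀ w, w ∈ Om ↔ IsTab r c w) (f : (Fin 3 → J → Bool) → ℝ)
  (hs : ∀ v ∈ Om, ∀ j j', c j = c j' → f (csw j j' v) = f v) (D : ℝ)
  (hn : ∀ v ∈ Om, ∀ a b e j j', a ≠ b → a ≠ e → b ≠ e → mvOK a b j j' v → v e j ≠ v e j' →
      |f v - f (mv a b j j' v)| ≤ D)

include hOm hn in
/-- the class `(v' b j, v' b j') = (1,0)`: bijection `mv a b j j'`. -/
theorem classTF {a b e : Fin 3} {j j' : J} {w : Fin 3 → J → Bool} (hw : w ∈ Om)
    (hab : a ≠ b) (hae : a ≠ e) (hbe : b ≠ e) (h : Cfg a b e j j' w)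
    (A P : Finset (Fin 3 → J → Bool)) (hA : ∀ v, v ∈ A ↔ v ∈ Om ∧ v a = w a)
    (hP : ∀ v, v ∈ P ↔ v ∈ Om ∧ v a = mv a b j j' w a ∧ v b j = true ∧ v b j' = false) :
    |(A.card : ℝ) * ∑ v' ∈ P, f v' - (P.card : ℝ) * ∑ v ∈ A, f v|
      ≤ (A.card : ℝ) * (P.card : ℝ) * D := by
  have hwT := (hOm w).1 hw
  have hcfg : ∀ v ∈ A, Cfg a b e j j' v := fun v hv =>
    cfg_of_row h hwT ((hOm v).1 ((hA v).1 hv).1) hab hae hbe ((hA v).1 hv).2
  refine bij_sum_le A P (mv a b j j') f f D ⟨?_, ?_, ?_⟩ ?_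
  · intro v hv
    have hv' : v ∈ A := hv
    have hc := hcfg v hv'
    have hvT := (hOm v).1 ((hA v).1 hv').1
    show mv a b j j' v ∈ P
    rw [hP]
    refine ⟨(hOm _).2 (mv_isTab hc.ok hvT), mv_row_a ((hA v).1 hv').2, ?_, ?_⟩
    · rw [mv_hit v (Or.inr rfl) (Or.inl rfl), hc.bj]; rfl
    · rw [mv_hit v (Or.inr rfl) (Or.inr rfl), hc.bj']; rfl
  · intro v _ v2 _ hEq
    have := congrArg (mv a b j j') hEq
    simpa using this
  · intro v' hv'
    have hv'' : v' ∈ P := hv'
    obtain ⟨h1, h2, h3, h4⟩ := (hP v').1 hv''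
    have hT := (hOm v').1 h1
    obtain ⟨c1, c2, c3, c4⟩ := compl_of_row h hwT hT hab hae hbe h2
    have hok : mvOK a b j' j v' := ⟨c2, c1, h4, h3⟩
    refine ⟨mv a b j j' v', ?_, by simp⟩
    show mv a b j j' v' ∈ A
    rw [hA]
    refine ⟨(hOm _).2 (by rw [mv_comm_cols]; exact mv_isTab hok hT), ?_⟩
    have : mv a b j j' v' a = mv a b j j' (mv a b j j' w) a := mv_row_a h2
    rw [this, mv_mv]
  · intro v hv
    have hc := hcfg v hv
    exact hn v ((hA v).1 hv).1 a b e j j' hab hae hbe hc.ok (by rw [hc.ej, hc.ej']; simp)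


include hOm hs hn in
/-- the class `(v' b j, v' b j') = (1,1)`: biregular relation. -/
theorem classTT {a b e : Fin 3} {j j' : J} {w : Fin 3 → J → Bool} (hw : w ∈ Om)
    (hab : a ≠ b) (hae : a ≠ e) (hbe : b ≠ e) (h : Cfg a b e j j' w)
    (A P : Finset (Fin 3 → J → Bool)) (hA : ∀ v, v ∈ A ↔ v ∈ Om ∧ v a = w a)
    (hP : ∀ v, v ∈ P ↔ v ∈ Om ∧ v a = mv a b j j' w a ∧ v b j = true ∧ v b j' = true) :
    |(A.card : ℝ) * ∑ v' ∈ P, f v' - (P.card : ℝ) * ∑ v ∈ A, f v|
      ≤ (A.card : ℝ) * (P.card : ℝ) * D := by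
  classical
  have hwT := (hOm w).1 hw
  have hjj := h.ne
  have hcfg : ∀ v ∈ A, Cfg a b e j j' v := fun v hv =>
    cfg_of_row h hwT ((hOm v).1 ((hA v).1 hv).1) hab hae hbe ((hA v).1 hv).2
  have hAT : ∀ v ∈ A, IsTab r c v := fun v hv => (hOm v).1 ((hA v).1 hv).1
  -- facts on P
  have hPf : ∀ v ∈ P, IsTab r c v ∧ v a j = false ∧ v a j' = true ∧ v b j = true ∧ v b j' = true
      ∧ v e j = false ∧ v e j' = false := by
    intro v hv
    obtain ⟨h1, h2, h3, h4⟩ := (hP v).1 hv
    have hT := (hOm v).1 h1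
    obtain ⟨c1, c2, c3, c4⟩ := compl_of_row h hwT hT hab hae hbe h2
    exact ⟨hT, c1, c2, h3, h4, by rw [c3, h3]; rfl, by rw [c4, h4]; rfl⟩
  set Ba := (univ.filter fun x => c x = (w a x).toNat + 2).card with hBa
  set Ba' := (univ.filter fun x => c x = (mv a b j j' w a x).toNat + 2).card with hBa'
  have hBB : Ba = Ba' + 1 := by
    have : (univ.filter fun x => c x = (w a x).toNat + 2)
        = insert j' (univ.filter fun x => c x = (mv a b j j' w a x).toNat + 2) := by
      ext x
      simp only [mem_filter, mem_univ, true_and, mem_insert]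
      by_cases hx' : x = j'
      · subst hx'
        simp [h.cj' hwT hab hae hbe, h.aj']
      · by_cases hx : x = j
        · subst hx
          simp [h.cj hwT hab hae hbe, h.aj, hx', mv_hit w (Or.inl rfl) (Or.inl rfl)]
        · simp [hx', mv_miss_col w a hx hx']
    rw [hBa, this, card_insert_of_notMem]
    simp [h.cj' hwT hab hae hbe, mv_hit w (Or.inl rfl) (Or.inr rfl), h.aj']
  refine biregular_sum_le A P
    (fun v v' => ∃ x, (v b x = true ∧ v e x = false) ∧ v' = mv b e x j' (mv a b j j' v))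
    f f (r b - Ba) (r e - Ba') D ?_ ?_ ?_ ?_
  · -- degree of v ∈ A
    intro v hv
    have hc := hcfg v hv
    have hvT := hAT v hv
    have hva := ((hA v).1 hv).2
    have himg : P.filter (fun v' => ∃ x, (v b x = true ∧ v e x = false) ∧
          v' = mv b e x j' (mv a b j j' v))
        = (univ.filter fun x => v b x = true ∧ v e x = false).image
            (fun x => mv b e x j' (mv a b j j' v)) := by
      ext v'
      simp only [mem_filter, mem_image, mem_univ, true_and]
      constructor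
      · rintro ⟨_, x, hx, rfl⟩
        exact ⟨x, hx, rfl⟩
      · rintro ⟨x, hx, rfl⟩
        obtain ⟨t1, t2, t3, t4, _, _⟩ := T_mem hab hae hbe hc hvT hx.1 hx.2
        exact ⟨(hP _).2 ⟨(hOm _).2 t1, t2.trans (mv_row_a hva), t3, t4⟩, x, hx, rfl⟩
    rw [himg, card_image_of_injOn]
    · have := card_b_not_e hvT hab hae hbe
      rw [hva] at this
      omega
    · intro x hx x2 hx2 hEq
      simp only [coe_filter, mem_univ, true_and, Set.mem_ofPred_eq] at hx hx2
      by_contra hne
      have hxj' : x ≠ j' := by rintro rfl; rw [hc.ej'] at hx; exact absurd hx.2 (by simp)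
      obtain ⟨_, _, _, _, _, t6⟩ := T_mem hab hae hbe hc hvT hx.1 hx.2
      have h2 : mv b e x2 j' (mv a b j j' v) e x = false := by
        rw [mv_miss_col _ e hne hxj', mv_miss_row v x hae.symm hbe.symm, hx.2]
      have h3 := congrFun (congrFun hEq e) x
      simp only at h3
      rw [t6, h2] at h3
      cases h3
  · -- degree of v' ∈ P
    intro v' hv'
    obtain ⟨hT, p1, p2, p3, p4, p5, p6⟩ := hPf v' hv'
    have hva' := ((hP v').1 hv').2.1
    have himg : A.filter (fun v => ∃ x, (v b x = true ∧ v e x = false) ∧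
          v' = mv b e x j' (mv a b j j' v))
        = (univ.filter fun x => v' e x = true ∧ v' b x = false).image
            (fun x => mv a b j j' (mv b e x j' v')) := by
      ext v
      simp only [mem_filter, mem_image, mem_univ, true_and]
      constructor
      · rintro ⟨hv, x, hx, rfl⟩
        obtain ⟨_, _, _, _, t5, t6⟩ := T_mem hab hae hbe (hcfg v hv) (hAT v hv) hx.1 hx.2
        exact ⟨x, ⟨t6, t5⟩, by simp⟩
      · rintro ⟨x, hx, rfl⟩
        obtain ⟨t1, t2, t3, t4⟩ := T'_mem hab hae hbe hjj hT p1 p2 p3 p4 p5 p6 hx.1 hx.2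
        refine ⟨(hA _).2 ⟨(hOm _).2 t1, ?_⟩, x, ⟨t3, t4⟩, by simp⟩
        rw [t2]
        have : mv a b j j' v' a = mv a b j j' (mv a b j j' w) a := mv_row_a hva'
        rw [this, mv_mv]
    rw [himg, card_image_of_injOn]
    · have := card_b_not_e hT hae hab hbe.symm
      rw [hva'] at this
      omega
    · intro x hx x2 hx2 hEq
      simp only [coe_filter, mem_univ, true_and, Set.mem_ofPred_eq] at hx hx2
      by_contra hne
      have hxj' : x ≠ j' := by rintro rfl; rw [p6] at hx; exact absurd hx.1 (by simp)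
      have hEq2 : mv b e x j' v' = mv b e x2 j' v' := by
        have := congrArg (mv a b j j') hEq
        simpa using this
      have h3 := congrFun (congrFun hEq2 e) x
      rw [mv_hit v' (Or.inr rfl) (Or.inl rfl), mv_miss_col v' e hne hxj', hx.1] at h3
      cases h3
  · -- q > 0
    have := card_b_not_e hwT hae hab hbe.symm
    omega
  · -- the estimate
    rintro v hv v' hv' ⟨x, hx, rfl⟩
    have hc := hcfg v hv
    have hvT := hAT v hv
    have hvO := ((hA v).1 hv).1
    have hv'O := ((hP _).1 hv').1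
    have hcx := hvT.col hab hae hbe x
    rw [hx.1, hx.2] at hcx
    cases hax : v a x
    · -- column x has sum 1 = c j
      rw [hax] at hcx
      have hcc : c x = c j := by rw [hc.cj hvT hab hae hbe, ← hcx]; rfl
      have e1 := hs _ hv'O x j hcc
      rw [T_csw_false hab hae hbe hc hx.1 hx.2 hax] at e1
      rw [← e1]
      exact hn v hvO a e b j j' hae hab hbe.symm hc.symm.ok (by rw [hc.bj, hc.bj']; simp)
    · rw [hax] at hcx
      have hcc : c x = c j' := by rw [hc.cj' hvT hab hae hbe, ← hcx]; rfl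
      have e1 := hs _ hv'O x j' hcc
      rw [T_csw_true hab hae hbe hc hx.1 hx.2 hax] at e1
      rw [← e1]
      exact hn v hvO a b e j j' hab hae hbe hc.ok (by rw [hc.ej, hc.ej']; simp)


include hOm hs hn in
/-- the case `w e j = false`, `w e j' = true`. -/
theorem core {a b e : Fin 3} {j j' : J} {w : Fin 3 → J → Bool} (hw : w ∈ Om)
    (hab : a ≠ b) (hae : a ≠ e) (hbe : b ≠ e) (h : Cfg a b e j j' w) :
    |ce Om (fun w => w a) f w - ce Om (fun w => w a) f (mv a b j j' w)| ≤ D := by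
  have hwT := (hOm w).1 hw
  have hw' : mv a b j j' w ∈ Om := (hOm _).2 (mv_isTab h.ok hwT)
  have hA : ∀ v, v ∈ fib Om (fun w => w a) w ↔ v ∈ Om ∧ v a = w a := fun v => by simp [fib]
  have hrow : mv a e j j' w a = mv a b j j' w a := mv_row_a rfl
  unfold ce
  refine avg_sub_avg_le _ _ f f D ⟨w, self_mem_fib _ _ hw⟩ ⟨_, self_mem_fib _ _ hw'⟩ ?_
  refine glue_sum_le _ _ (fun v' => (v' b j, v' b j')) f f D ?_
  rintro ⟨k1, k2⟩
  have hmem : ∀ v, v ∈ (fib Om (fun w => w a) (mv a b j j' w)).filter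
      (fun v' => (v' b j, v' b j') = (k1, k2)) ↔
      v ∈ Om ∧ v a = mv a b j j' w a ∧ v b j = k1 ∧ v b j' = k2 := fun v => by
    simp [fib, and_assoc]
  have hmem' : ∀ v, v ∈ (fib Om (fun w => w a) (mv a b j j' w)).filter
      (fun v' => (v' b j, v' b j') = (k1, k2)) ↔
      v ∈ Om ∧ v a = mv a e j j' w a ∧ v e j = !k1 ∧ v e j' = !k2 := fun v => by
    rw [hmem, hrow]
    constructor
    · rintro ⟨h1, h2, h3, h4⟩
      obtain ⟨_, _, c3, c4⟩ := compl_of_row h hwT ((hOm v).1 h1) hab hae hbe h2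
      exact ⟨h1, h2, by rw [c3, h3], by rw [c4, h4]⟩
    · rintro ⟨h1, h2, h3, h4⟩
      obtain ⟨_, _, c3, c4⟩ := compl_of_row h hwT ((hOm v).1 h1) hab hae hbe h2
      refine ⟨h1, h2, ?_, ?_⟩
      · rw [c3] at h3; simpa using h3
      · rw [c4] at h4; simpa using h4
  cases k1 <;> cases k2
  · exact classTT Om hOm f hs D hn hw hae hab hbe.symm h.symm _ _ hA hmem'
  · exact classTF Om hOm f D hn hw hae hab hbe.symm h.symm _ _ hA hmem'
  · exact classTF Om hOm f D hn hw hab hae hbe h _ _ hA hmem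
  · exact classTT Om hOm f hs D hn hw hab hae hbe h _ _ hA hmem

include hOm hs hn in
/-- **Case (ii) of the 3-row lemma** (exact statement announced by helper17, board #181/#202). -/
theorem caseN :
    ∀ w ∈ Om, ∀ a b e j j', a ≠ b → a ≠ e → b ≠ e → mvOK a b j j' w → w e j ≠ w e j' →
      |ce Om (fun w => w a) f w - ce Om (fun w => w a) f (mv a b j j' w)| ≤ D := by
  intro w hw a b e j j' hab hae hbe hok hne
  have hwT := (hOm w).1 hw
  obtain ⟨h1, h2, h3, h4⟩ := hok
  cases hej : w e j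
  · have hej' : w e j' = true := by
      rw [hej] at hne
      cases hh : w e j'
      · exact absurd hh.symm hne
      · rfl
    exact core Om hOm f hs D hn hw hab hae hbe ⟨h1, h2, h3, h4, hej, hej'⟩
  · have hej' : w e j' = false := by
      rw [hej] at hne
      cases hh : w e j'
      · rfl
      · exact absurd hh.symm hne
    have hok : mvOK a b j j' w := ⟨h1, h2, h3, h4⟩
    have hw' : mv a b j j' w ∈ Om := (hOm _).2 (mv_isTab hok hwT)
    have hok' := mvOK_mv hok
    have hc : Cfg a b e j' j (mv a b j j' w) :=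
      ⟨hok'.1, hok'.2.1, hok'.2.2.1, hok'.2.2.2,
        by rw [mv_miss_row w j' hae.symm hbe.symm, hej'],
        by rw [mv_miss_row w j hae.symm hbe.symm, hej]⟩
    have := core Om hOm f hs D hn hw' hab hae hbe hc
    rw [mv_comm_cols a b j' j, mv_mv] at this
    rw [abs_sub_comm]
    exact this

end classes

end Crest.Agent.Switch.TRN20
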