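import Crest.Agent.Switch.Basic

/-!
# Moves on 3-row 0/1 tables (shared definitions for the 3-row lemma, M5)

`csw` = column swap, `mv` = switch on two rows and two columns.
-/

set_option autoImplicit false
set_option linter.unusedSectionVars false
open Finset

namespace Crest.Agent.Switch.TRM

variable {J : Type*} [Fintype J] [DecidableEq J]

/-- column swap. -/
def csw (j j' : J) (w : Fin 3 → J → Bool) : Fin 3 → J → Bool :=
  fun i y => w i (Equiv.swap j j' y)

/-- switch: flip the four entries in rows `a, b` and columns `j, j'`. -/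
def mv (a b : Fin 3) (j j' : J) (w : Fin 3 → J → Bool) : Fin 3 → J → Bool :=
  fun i y => if (i = a ∨ i = b) ∧ (y = j ∨ y = j') then !(w i y) else w i y

/-- the switch is admissible. -/
def mvOK (a b : Fin 3) (j j' : J) (w : Fin 3 → J → Bool) : Prop :=
  w a j = true ∧ w a j' = false ∧ w b j = false ∧ w b j' = true

/-- `w` has row sums `r` and column sums `c`. -/
def IsTab (r : Fin 3 → ℕ) (c : J → ℕ) (w : Fin 3 → J → Bool) : Prop :=
  (∀ i, ∑ j, (w i j).toNat = r i) ∧ (∀ j, ∑ i, (w i j).toNat = c j)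

theorem csw_apply (j j' : J) (w : Fin 3 → J → Bool) (i : Fin 3) (y : J) :
    csw j j' w i y = w i (Equiv.swap j j' y) := rfl

theorem mv_apply (a b : Fin 3) (j j' : J) (w : Fin 3 → J → Bool) (i : Fin 3) (y : J) :
    mv a b j j' w i y = if (i = a ∨ i = b) ∧ (y = j ∨ y = j') then !(w i y) else w i y := rfl

@[simp] theorem csw_csw (j j' : J) (w : Fin 3 → J → Bool) : csw j j' (csw j j' w) = w := by
  funext i y; simp [csw]

@[simp] theorem mv_mv (a b : Fin 3) (j j' : J) (w : Fin 3 → J → Bool) :
    mv a b j j' (mv a b j j' w) = w := by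
  funext i y; simp only [mv]; split_ifs <;> simp

theorem csw_comm (j j' : J) (w : Fin 3 → J → Bool) : csw j j' w = csw j' j w := by
  funext i y; simp [csw, Equiv.swap_comm]

theorem mv_comm_cols (a b : Fin 3) (j j' : J) (w : Fin 3 → J → Bool) :
    mv a b j j' w = mv a b j' j w := by
  funext i y; simp only [mv, or_comm]

theorem mv_comm_rows (a b : Fin 3) (j j' : J) (w : Fin 3 → J → Bool) :
    mv a b j j' w = mv b a j j' w := by
  funext i y; simp only [mv, or_comm]

theorem mv_swap_both (a b : Fin 3) (j j' : J) (w : Fin 3 → J → Bool) :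
    mv a b j j' w = mv b a j' j w := by
  rw [mv_comm_cols, mv_comm_rows]

theorem mvOK.ne_cols {a b : Fin 3} {j j' : J} {w : Fin 3 → J → Bool} (h : mvOK a b j j' w) :
    j ≠ j' := by
  rintro rfl; have := h.1; rw [h.2.1] at this; cases this

theorem mvOK.ne_rows {a b : Fin 3} {j j' : J} {w : Fin 3 → J → Bool} (h : mvOK a b j j' w) :
    a ≠ b := by
  rintro rfl; have := h.1; rw [h.2.2.1] at this; cases this

theorem mvOK.swap_both {a b : Fin 3} {j j' : J} {w : Fin 3 → J → Bool} (h : mvOK a b j j' w) :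
    mvOK b a j' j w := ⟨h.2.2.2, h.2.2.1, h.2.1, h.1⟩

/-- after the switch, the reverse switch (columns exchanged) is admissible. -/
theorem mvOK_mv {a b : Fin 3} {j j' : J} {w : Fin 3 → J → Bool} (h : mvOK a b j j' w) :
    mvOK a b j' j (mv a b j j' w) := by
  obtain ⟨h1, h2, h3, h4⟩ := h
  refine ⟨?_, ?_, ?_, ?_⟩ <;> simp [mv, *]

/-- rows other than `a, b` are unchanged. -/
theorem mv_row_of_ne {a b e : Fin 3} (j j' : J) (w : Fin 3 → J → Bool) (h1 : e ≠ a) (h2 : e ≠ b) :
    mv a b j j' w e = w e := by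
  funext y; simp [mv, h1, h2]

/-- an admissible switch acts on the rows `a, b` as the swap of the columns `j, j'`. -/
theorem mv_eq_rows {a b : Fin 3} {j j' : J} {w : Fin 3 → J → Bool} (h : mvOK a b j j' w) :
    mv a b j j' w = fun i y => if i = a ∨ i = b then w i (Equiv.swap j j' y) else w i y := by
  obtain ⟨h1, h2, h3, h4⟩ := h
  funext i y
  simp only [mv]
  by_cases hi : i = a ∨ i = b
  · by_cases hy : y = j
    · subst hy
      rcases hi with rfl | rfl <;> simp [*]
    · by_cases hy' : y = j'
      · subst hy'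
        rcases hi with rfl | rfl <;> simp [*]
      · simp [hi, hy, hy', Equiv.swap_apply_of_ne_of_ne hy hy']
  · simp [hi]

/-- an admissible switch acts on the columns `j, j'` as the swap of the rows `a, b`. -/
theorem mv_eq_cols {a b : Fin 3} {j j' : J} {w : Fin 3 → J → Bool} (h : mvOK a b j j' w) :
    mv a b j j' w = fun i y => if y = j ∨ y = j' then w (Equiv.swap a b i) y else w i y := by
  obtain ⟨h1, h2, h3, h4⟩ := h
  funext i y
  simp only [mv]
  by_cases hy : y = j ∨ y = j'
  · by_cases hi : i = a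
    · subst hi
      rcases hy with rfl | rfl <;> simp [*]
    · by_cases hi' : i = b
      · subst hi'
        rcases hy with rfl | rfl <;> simp [*]
      · simp [hy, hi, hi', Equiv.swap_apply_of_ne_of_ne hi hi']
  · simp [hy]

theorem csw_isTab {r : Fin 3 → ℕ} {c : J → ℕ} {j j' : J} {w : Fin 3 → J → Bool}
    (hc : c j = c j') (hw : IsTab r c w) : IsTab r c (csw j j' w) := by
  refine ⟨fun i => ?_, fun y => ?_⟩
  · rw [← hw.1 i]
    exact Equiv.sum_comp (Equiv.swap j j') (fun y => (w i y).toNat)
  · simp only [csw]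
    rw [hw.2]
    by_cases hy : y = j
    · subst hy; simp [hc]
    · by_cases hy' : y = j'
      · subst hy'; simp [hc]
      · rw [Equiv.swap_apply_of_ne_of_ne hy hy']

theorem mv_isTab {r : Fin 3 → ℕ} {c : J → ℕ} {a b : Fin 3} {j j' : J} {w : Fin 3 → J → Bool}
    (h : mvOK a b j j' w) (hw : IsTab r c w) : IsTab r c (mv a b j j' w) := by
  refine ⟨fun i => ?_, fun y => ?_⟩
  · rw [mv_eq_rows h, ← hw.1 i]
    by_cases hi : i = a ∨ i = b
    · simp only [hi, if_true]
      exact Equiv.sum_comp (Equiv.swap j j') (fun y => (w i y).toNat)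
    · simp only [hi, if_false]
  · rw [mv_eq_cols h, ← hw.2 y]
    by_cases hy : y = j ∨ y = j'
    · simp only [hy, if_true]
      exact Equiv.sum_comp (Equiv.swap a b) (fun i => (w i y).toNat)
    · simp only [hy, if_false]

/-- sums over `Fin 3` along three distinct indices. -/
theorem sum_fin3 {M : Type*} [AddCommMonoid M] {a b e : Fin 3} (hab : a ≠ b) (hae : a ≠ e)
    (hbe : b ≠ e) (g : Fin 3 → M) : ∑ i, g i = g a + g b + g e := by
  have hu : (univ : Finset (Fin 3)) = {a, b, e} := by
    revert a b e; decide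
  rw [hu, sum_insert (by simp [hab, hae]), sum_insert (by simp [hbe]), sum_singleton, add_assoc]

theorem IsTab.col {r : Fin 3 → ℕ} {c : J → ℕ} {w : Fin 3 → J → Bool} (hw : IsTab r c w)
    {a b e : Fin 3} (hab : a ≠ b) (hae : a ≠ e) (hbe : b ≠ e) (y : J) :
    (w a y).toNat + (w b y).toNat + (w e y).toNat = c y := by
  rw [← hw.2 y, sum_fin3 hab hae hbe]

end Crest.Agent.Switch.TRM
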