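import Crest.Agent.Switch.Graph
import Crest.Agent.Switch.Connected

/-! # Module M7c: `Zt = Zx` (the fibres of `G ↦ G \ mcells a b c e` have one or two elements) -/

set_option autoImplicit false
open Finset Crest.SwitchChain

namespace Crest.Agent.Switch
namespace ZtZx

variable {n : ℕ}

open Conn (mkE)

section
variable {a b c e : Fin n} (h : dist4 a b c e)
include h

lemma mem_mcells (x : Edge n) :
    x ∈ mcells a b c e ↔ x = mkE a c h.2.1 ∨ x = mkE a e h.2.2.1 ∨ x = mkE b c h.2.2.2.1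
      ∨ x = mkE b e h.2.2.2.2.1 := by
  unfold mcells
  rw [cell_eq_mkE a c h.2.1, cell_eq_mkE a e h.2.2.1, cell_eq_mkE b c h.2.2.2.1,
    cell_eq_mkE b e h.2.2.2.2.1]
  simp only [mem_union, mem_singleton]
  tauto

lemma mcells_eq :
    mcells a b c e = {mkE a c h.2.1, mkE a e h.2.2.1, mkE b c h.2.2.2.1, mkE b e h.2.2.2.2.1} := by
  ext x
  rw [mem_mcells h]
  simp

lemma mem_sw (G : Gr n) (x : Edge n) :
    x ∈ sw G a b c e ↔ (x ∈ G ∧ x ≠ mkE a c h.2.1 ∧ x ≠ mkE b e h.2.2.2.2.1)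
      ∨ x = mkE a e h.2.2.1 ∨ x = mkE b c h.2.2.2.1 := by
  unfold sw
  rw [cell_eq_mkE a c h.2.1, cell_eq_mkE a e h.2.2.1, cell_eq_mkE b c h.2.2.2.1,
    cell_eq_mkE b e h.2.2.2.2.1]
  simp only [mem_union, mem_sdiff, mem_singleton, not_or, ne_eq]

lemma ne12 : mkE a c h.2.1 ≠ mkE a e h.2.2.1 := by
  obtain ⟨hab, hac, hae, hbc, hbe, hce⟩ := h
  rw [Ne, Conn.mkE_eq_iff]; rintro (⟨-, h⟩ | ⟨h, -⟩) <;> contradiction
lemma ne13 : mkE a c h.2.1 ≠ mkE b c h.2.2.2.1 := by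
  obtain ⟨hab, hac, hae, hbc, hbe, hce⟩ := h
  rw [Ne, Conn.mkE_eq_iff]; rintro (⟨h, -⟩ | ⟨h, -⟩) <;> contradiction
lemma ne14 : mkE a c h.2.1 ≠ mkE b e h.2.2.2.2.1 := by
  obtain ⟨hab, hac, hae, hbc, hbe, hce⟩ := h
  rw [Ne, Conn.mkE_eq_iff]; rintro (⟨h, -⟩ | ⟨h, -⟩) <;> contradiction
lemma ne23 : mkE a e h.2.2.1 ≠ mkE b c h.2.2.2.1 := by
  obtain ⟨hab, hac, hae, hbc, hbe, hce⟩ := h
  rw [Ne, Conn.mkE_eq_iff]; rintro (⟨h, -⟩ | ⟨h, -⟩) <;> contradiction
lemma ne24 : mkE a e h.2.2.1 ≠ mkE b e h.2.2.2.2.1 := by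
  obtain ⟨hab, hac, hae, hbc, hbe, hce⟩ := h
  rw [Ne, Conn.mkE_eq_iff]; rintro (⟨h, -⟩ | ⟨h, -⟩) <;> contradiction
lemma ne34 : mkE b c h.2.2.2.1 ≠ mkE b e h.2.2.2.2.1 := by
  obtain ⟨hab, hac, hae, hbc, hbe, hce⟩ := h
  rw [Ne, Conn.mkE_eq_iff]; rintro (⟨-, h⟩ | ⟨h, -⟩) <;> contradiction

/-- degree split along the four cells. -/
lemma deg_split (G : Gr n) (x : Fin n) :
    deg G x = deg (G \ mcells a b c e) x
      + ((if mkE a c h.2.1 ∈ G then (if x = a ∨ x = c then 1 else 0) else 0)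
      + ((if mkE a e h.2.2.1 ∈ G then (if x = a ∨ x = e then 1 else 0) else 0)
      + ((if mkE b c h.2.2.2.1 ∈ G then (if x = b ∨ x = c then 1 else 0) else 0)
      + (if mkE b e h.2.2.2.2.1 ∈ G then (if x = b ∨ x = e then 1 else 0) else 0)))) := by
  have h1 : deg G x = deg (G \ mcells a b c e) x + deg (mcells a b c e ∩ G) x := by
    simp only [Conn.deg_eq_sum]
    have hsub : mcells a b c e ∩ G ⊆ G := inter_subset_right
    rw [← Finset.sum_sdiff hsub]
    congr 2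
    ext y; simp only [mem_sdiff, mem_inter]; tauto
  rw [h1, Conn.deg_eq_sum (mcells a b c e ∩ G), ← Finset.filter_mem_eq_inter, Finset.sum_filter,
    mcells_eq h]
  have n12 := ne12 h; have n13 := ne13 h; have n14 := ne14 h
  have n23 := ne23 h; have n24 := ne24 h; have n34 := ne34 h
  rw [Finset.sum_insert (by simp [n12, n13, n14]), Finset.sum_insert (by simp [n23, n24]),
    Finset.sum_insert (by simp [n34]), Finset.sum_singleton]
  simp only [Conn.mem_mkE]

/-- indicator of an edge. -/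
def ind (G : Gr n) (x : Edge n) : ℕ := if x ∈ G then 1 else 0

omit h in
lemma ind_le (G : Gr n) (x : Edge n) : ind G x ≤ 1 := by unfold ind; split_ifs <;> omega
omit h in
lemma ind_one {G : Gr n} {x : Edge n} : ind G x = 1 ↔ x ∈ G := by unfold ind; split_ifs <;> simp [*]
omit h in
lemma ind_zero {G : Gr n} {x : Edge n} : ind G x = 0 ↔ x ∉ G := by unfold ind; split_ifs <;> simp [*]

lemma deg_a (G : Gr n) : deg G a = deg (G \ mcells a b c e) a
    + (ind G (mkE a c h.2.1) + ind G (mkE a e h.2.2.1)) := by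
  rw [deg_split h G a]
  obtain ⟨hab, hac, hae, hbc, hbe, hce⟩ := h
  simp [ind, hab, hac, hae]
lemma deg_b (G : Gr n) : deg G b = deg (G \ mcells a b c e) b
    + (ind G (mkE b c h.2.2.2.1) + ind G (mkE b e h.2.2.2.2.1)) := by
  rw [deg_split h G b]
  obtain ⟨hab, hac, hae, hbc, hbe, hce⟩ := h
  simp [ind, hab.symm, hbc, hbe]
lemma deg_c (G : Gr n) : deg G c = deg (G \ mcells a b c e) c
    + (ind G (mkE a c h.2.1) + ind G (mkE b c h.2.2.2.1)) := by
  rw [deg_split h G c]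
  obtain ⟨hab, hac, hae, hbc, hbe, hce⟩ := h
  simp [ind, hac.symm, hbc.symm, hce]
lemma deg_e (G : Gr n) : deg G e = deg (G \ mcells a b c e) e
    + (ind G (mkE a e h.2.2.1) + ind G (mkE b e h.2.2.2.2.1)) := by
  rw [deg_split h G e]
  obtain ⟨hab, hac, hae, hbc, hbe, hce⟩ := h
  simp [ind, hae.symm, hbe.symm, hce.symm]

omit h in
lemma eq_of_agree {M G G' : Gr n} (hs : G \ M = G' \ M) (hm : ∀ x ∈ M, (x ∈ G ↔ x ∈ G')) :
    G = G' := by
  ext x
  by_cases hx : x ∈ M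
  · exact hm x hx
  · have := congrArg (fun S => x ∈ S) hs
    simpa [hx] using this

lemma sw_sdiff (G : Gr n) : sw G a b c e \ mcells a b c e = G \ mcells a b c e := by
  ext x
  simp only [mem_sdiff, mem_sw h, mem_mcells h]
  tauto

lemma swOK_iff (G : Gr n) : swOK G a b c e ↔ mkE a c h.2.1 ∈ G ∧ mkE b e h.2.2.2.2.1 ∈ G
    ∧ mkE a e h.2.2.1 ∉ G ∧ mkE b c h.2.2.2.1 ∉ G := by
  unfold swOK
  rw [adj_iff_mkE G a c h.2.1, adj_iff_mkE G b e h.2.2.2.2.1, adj_iff_mkE G a e h.2.2.1,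
    adj_iff_mkE G b c h.2.2.2.1]

lemma flip : dist4 a b e c :=
  ⟨h.1, h.2.2.1, h.2.1, h.2.2.2.2.1, h.2.2.2.1, h.2.2.2.2.2.symm⟩

lemma mcells_flip : mcells a b e c = mcells a b c e := by
  ext x
  rw [mem_mcells h, mem_mcells (flip h)]
  tauto

lemma sw_mem {d : Fin n → ℕ} {G : Gr n} (hG : G ∈ realizations d) (hok : swOK G a b c e) :
    sw G a b c e ∈ realizations d := by
  rw [swOK_iff h] at hok
  obtain ⟨p1, p4, p2, p3⟩ := hok
  refine Conn.swAdj_mem_realizations hG ?_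
  refine ⟨a, c, e, b, h.2.1, h.2.2.2.2.1.symm, h.2.2.1, h.2.2.2.1.symm, h.1, h.2.2.2.2.2, p1, ?_, p2,
    ?_, ?_⟩
  · rw [← Conn.mkE_comm]; exact p4
  · rw [← Conn.mkE_comm]; exact p3
  · ext x
    rw [mem_sw h, ← Conn.mkE_comm b e h.2.2.2.2.1, ← Conn.mkE_comm b c h.2.2.2.1]
    simp only [mem_union, mem_sdiff, mem_insert, mem_singleton, not_or, ne_eq]

lemma fibre_cases {d : Fin n → ℕ} {G G' : Gr n} (hG : G ∈ realizations d)
    (hG' : G' ∈ realizations d) (hs : G' \ mcells a b c e = G \ mcells a b c e) :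
    G' = G ∨ (swOK G a b c e ∧ G' = sw G a b c e) ∨ (swOK G a b e c ∧ G' = sw G a b e c) := by
  simp only [realizations, mem_filter, mem_univ, true_and] at hG hG'
  have ea := (deg_a h G).symm.trans ((hG a).trans ((hG' a).symm.trans (deg_a h G')))
  have eb := (deg_b h G).symm.trans ((hG b).trans ((hG' b).symm.trans (deg_b h G')))
  have ec := (deg_c h G).symm.trans ((hG c).trans ((hG' c).symm.trans (deg_c h G')))
  have ee := (deg_e h G).symm.trans ((hG e).trans ((hG' e).symm.trans (deg_e h G')))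
  rw [hs] at ea eb ec ee
  have l1 := ind_le G (mkE a c h.2.1); have l2 := ind_le G (mkE a e h.2.2.1)
  have l3 := ind_le G (mkE b c h.2.2.2.1); have l4 := ind_le G (mkE b e h.2.2.2.2.1)
  have m1 := ind_le G' (mkE a c h.2.1); have m2 := ind_le G' (mkE a e h.2.2.1)
  have m3 := ind_le G' (mkE b c h.2.2.2.1); have m4 := ind_le G' (mkE b e h.2.2.2.2.1)
  have key : (ind G (mkE a c h.2.1) = ind G' (mkE a c h.2.1) ∧
        ind G (mkE a e h.2.2.1) = ind G' (mkE a e h.2.2.1) ∧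
        ind G (mkE b c h.2.2.2.1) = ind G' (mkE b c h.2.2.2.1) ∧
        ind G (mkE b e h.2.2.2.2.1) = ind G' (mkE b e h.2.2.2.2.1)) ∨
      (ind G (mkE a c h.2.1) = 1 ∧ ind G (mkE a e h.2.2.1) = 0 ∧ ind G (mkE b c h.2.2.2.1) = 0 ∧
        ind G (mkE b e h.2.2.2.2.1) = 1 ∧ ind G' (mkE a c h.2.1) = 0 ∧
        ind G' (mkE a e h.2.2.1) = 1 ∧ ind G' (mkE b c h.2.2.2.1) = 1 ∧
        ind G' (mkE b e h.2.2.2.2.1) = 0) ∨
      (ind G (mkE a c h.2.1) = 0 ∧ ind G (mkE a e h.2.2.1) = 1 ∧ ind G (mkE b c h.2.2.2.1) = 1 ∧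
        ind G (mkE b e h.2.2.2.2.1) = 0 ∧ ind G' (mkE a c h.2.1) = 1 ∧
        ind G' (mkE a e h.2.2.1) = 0 ∧ ind G' (mkE b c h.2.2.2.1) = 0 ∧
        ind G' (mkE b e h.2.2.2.2.1) = 1) := by
    omega
  have iff_of_ind : ∀ x : Edge n, ind G x = ind G' x → (x ∈ G' ↔ x ∈ G) := by
    intro x hx
    rw [← ind_one, ← ind_one (G := G), hx]
  rcases key with ⟨k1, k2, k3, k4⟩ | ⟨k1, k2, k3, k4, k5, k6, k7, k8⟩ |
      ⟨k1, k2, k3, k4, k5, k6, k7, k8⟩
  · left
    refine eq_of_agree hs ?_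
    intro x hx
    rcases (mem_mcells h x).1 hx with rfl | rfl | rfl | rfl
    · exact iff_of_ind _ k1
    · exact iff_of_ind _ k2
    · exact iff_of_ind _ k3
    · exact iff_of_ind _ k4
  · right; left
    rw [ind_one] at k1 k4 k6 k7
    rw [ind_zero] at k2 k3 k5 k8
    refine ⟨(swOK_iff h G).2 ⟨k1, k4, k2, k3⟩, ?_⟩
    refine eq_of_agree (hs.trans (sw_sdiff h G).symm) ?_
    have n12 := ne12 h; have n13 := ne13 h; have n14 := ne14 h
    have n23 := ne23 h; have n24 := ne24 h; have n34 := ne34 h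
    intro x hx
    rw [mem_sw h]
    rcases (mem_mcells h x).1 hx with rfl | rfl | rfl | rfl
    · simp [k5, n12, n13]
    · simp [k6]
    · simp [k7]
    · simp [k8, n24.symm, n34.symm]
  · right; right
    rw [ind_one] at k2 k3 k5 k8
    rw [ind_zero] at k1 k4 k6 k7
    refine ⟨(swOK_iff (flip h) G).2 ⟨k2, k3, k1, k4⟩, ?_⟩
    have hs' : G' \ mcells a b e c = G \ mcells a b e c := by rw [mcells_flip h]; exact hs
    refine eq_of_agree (hs'.trans (sw_sdiff (flip h) G).symm) ?_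
    have n12 := ne12 h; have n13 := ne13 h; have n14 := ne14 h
    have n23 := ne23 h; have n24 := ne24 h; have n34 := ne34 h
    intro x hx
    rw [mem_sw (flip h)]
    rw [mcells_flip h] at hx
    rcases (mem_mcells h x).1 hx with rfl | rfl | rfl | rfl
    · simp [k5]
    · simp [k6, n12.symm, n24]
    · simp [k7, n13.symm, n34]
    · simp [k8]

lemma sw_ne {G : Gr n} (hok : swOK G a b c e) : sw G a b c e ≠ G := by
  intro heq
  have h1 := (swOK_iff h G).1 hok
  have hm : mkE a e h.2.2.1 ∈ sw G a b c e := (mem_sw h G _).2 (Or.inr (Or.inl rfl))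
  rw [heq] at hm
  exact h1.2.2.1 hm

lemma swOK_sw {G : Gr n} (_hok : swOK G a b c e) : swOK (sw G a b c e) a b e c := by
  rw [swOK_iff (flip h)]
  have n12 := ne12 h; have n13 := ne13 h; have n14 := ne14 h
  have n23 := ne23 h; have n24 := ne24 h; have n34 := ne34 h
  refine ⟨(mem_sw h G _).2 (Or.inr (Or.inl rfl)), (mem_sw h G _).2 (Or.inr (Or.inr rfl)), ?_, ?_⟩
  · rw [mem_sw h]; simp [n12, n13]
  · rw [mem_sw h]; simp [n24.symm, n34.symm]

lemma sw_sw {G : Gr n} (hok : swOK G a b c e) : sw (sw G a b c e) a b e c = G := by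
  obtain ⟨p1, p4, p2, p3⟩ := (swOK_iff h G).1 hok
  have n12 := ne12 h; have n13 := ne13 h; have n14 := ne14 h
  have n23 := ne23 h; have n24 := ne24 h; have n34 := ne34 h
  ext x
  rw [mem_sw (flip h), mem_sw h]
  by_cases x1 : x = mkE a c h.2.1
  · subst x1; simp [p1]
  by_cases x4 : x = mkE b e h.2.2.2.2.1
  · subst x4; simp [p4]
  by_cases x2 : x = mkE a e h.2.2.1
  · subst x2; simp [p2, n12.symm, n24]
  by_cases x3 : x = mkE b c h.2.2.2.1
  · subst x3; simp [p3, n13.symm, n34]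
  simp [x1, x2, x3, x4]

lemma not_both {G : Gr n} (h1 : swOK G a b c e) (h2 : swOK G a b e c) : False :=
  ((swOK_iff (flip h) G).1 h2).2.2.1 ((swOK_iff h G).1 h1).1

lemma fib_of_ok {d : Fin n → ℕ} {G : Gr n} (hG : G ∈ realizations d) (hok : swOK G a b c e) :
    fib (realizations d) (fun G => G \ mcells a b c e) G = {G, sw G a b c e} := by
  ext G'
  simp only [mem_fib, mem_insert, mem_singleton]
  constructor
  · rintro ⟨hG', hs⟩
    rcases fibre_cases h hG hG' hs with h1 | ⟨-, h1⟩ | ⟨h1, -⟩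
    · exact Or.inl h1
    · exact Or.inr h1
    · exact (not_both h hok h1).elim
  · rintro (rfl | rfl)
    · exact ⟨hG, rfl⟩
    · exact ⟨sw_mem h hG hok, sw_sdiff h G⟩

lemma fib_of_not {d : Fin n → ℕ} {G : Gr n} (hG : G ∈ realizations d) (h1 : ¬ swOK G a b c e)
    (h2 : ¬ swOK G a b e c) :
    fib (realizations d) (fun G => G \ mcells a b c e) G = {G} := by
  ext G'
  simp only [mem_fib, mem_singleton]
  constructor
  · rintro ⟨hG', hs⟩
    rcases fibre_cases h hG hG' hs with h3 | ⟨h3, -⟩ | ⟨h3, -⟩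
    · exact h3
    · exact (h1 h3).elim
    · exact (h2 h3).elim
  · rintro rfl
    exact ⟨hG, rfl⟩

lemma qe_of_ok {d : Fin n → ℕ} (f : Gr n → ℝ) {G : Gr n} (hG : G ∈ realizations d)
    (hok : swOK G a b c e) :
    qe (realizations d) (fun G => G \ mcells a b c e) f G = (f G - f (sw G a b c e)) / 2 := by
  unfold qe ce
  rw [fib_of_ok h hG hok, sum_pair (sw_ne h hok).symm, card_pair (sw_ne h hok).symm]
  push_cast
  ring

lemma qe_of_not {d : Fin n → ℕ} (f : Gr n → ℝ) {G : Gr n} (hG : G ∈ realizations d)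
    (h1 : ¬ swOK G a b c e) (h2 : ¬ swOK G a b e c) :
    qe (realizations d) (fun G => G \ mcells a b c e) f G = 0 := by
  unfold qe ce
  rw [fib_of_not h hG h1 h2]
  simp

lemma qe_sq {d : Fin n → ℕ} (f : Gr n → ℝ) {G : Gr n} (hG : G ∈ realizations d) :
    qe (realizations d) (fun G => G \ mcells a b c e) f G
        * qe (realizations d) (fun G => G \ mcells a b c e) f G
      = (if swOK G a b c e then ((f G - f (sw G a b c e)) / 2) ^ 2 else 0)
        + (if swOK G a b e c then ((f G - f (sw G a b e c)) / 2) ^ 2 else 0) := by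
  by_cases h1 : swOK G a b c e
  · have h2 : ¬ swOK G a b e c := fun h2 => not_both h h1 h2
    rw [qe_of_ok h f hG h1, if_pos h1, if_neg h2]
    ring
  · by_cases h2 : swOK G a b e c
    · have := qe_of_ok (flip h) f hG h2
      rw [mcells_flip h] at this
      rw [this, if_neg h1, if_pos h2]
      ring
    · rw [qe_of_not h f hG h1 h2, if_neg h1, if_neg h2]
      ring

end

end ZtZx

/-- M7c, exact statement of the skeleton's `Zt_eq_Zx`. -/
theorem Zt_eq_Zx' {n : ℕ} (d : Fin n → ℕ) (f : Gr n → ℝ) (a b c e : Fin n) (h : dist4 a b c e) :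
    Zt (realizations d) f a b c e = Zx (realizations d) f a b c e := by
  unfold Zt Zx ip
  rw [sum_congr rfl (fun G hG => ZtZx.qe_sq h f hG), sum_add_distrib, ← sum_filter, ← sum_filter]
  have hbij : ∑ G ∈ (realizations d).filter (fun G => swOK G a b e c),
        ((f G - f (sw G a b e c)) / 2) ^ 2
      = ∑ G ∈ (realizations d).filter (fun G => swOK G a b c e),
        ((f G - f (sw G a b c e)) / 2) ^ 2 := by
    symm
    refine sum_nbij' (fun G => sw G a b c e) (fun G => sw G a b e c) ?_ ?_ ?_ ?_ ?_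
    · intro G hG
      rw [mem_filter] at hG ⊢
      exact ⟨ZtZx.sw_mem h hG.1 hG.2, ZtZx.swOK_sw h hG.2⟩
    · intro G hG
      rw [mem_filter] at hG ⊢
      exact ⟨ZtZx.sw_mem (ZtZx.flip h) hG.1 hG.2, ZtZx.swOK_sw (ZtZx.flip h) hG.2⟩
    · intro G hG
      rw [mem_filter] at hG
      exact ZtZx.sw_sw h hG.2
    · intro G hG
      rw [mem_filter] at hG
      exact ZtZx.sw_sw (ZtZx.flip h) hG.2
    · intro G hG
      rw [mem_filter] at hG
      rw [ZtZx.sw_sw h hG.2]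
      ring
  rw [hbij, mul_sum, ← sum_add_distrib]
  refine sum_congr rfl fun G _ => ?_
  ring

end Crest.Agent.Switch
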